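import Crest.Agent.N250.Lp.Defs
import Crest.Agent.N250.Po.Area
import Crest.Agent.N250.Ra.Fou
import Crest.Agent.N250.B1.Defs

/-! Row 250, block R0 (helper28): Jacobi fields of one end in the polar chart. -/

set_option autoImplicit false
open Set
open scoped ContDiff

noncomputable section

namespace Crest.Agent.N250.Lg

/-- `d` is a Jacobi field of polynomial growth of the polar graph `v` on `R < x` -/
structure Jac (v : ℝ × ℝ → ℂ) (R : ℝ) (d : ℝ × ℝ → ℂ) : Prop where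
  sm : ContDiffOn ℝ ∞ d (Ioi R ×ˢ univ)
  c1 : ContDiffOn ℝ 1 d (Ici R ×ˢ univ)
  per : Po.Per d
  eq : ∀ q : ℝ × ℝ, R < q.1 → Lp.linEL v d q = 0
  gr : ∃ (C : ℝ) (N : ℕ), ∀ q : ℝ × ℝ, R < q.1 → ‖d q‖ ≤ C * q.1 ^ N

/-- `d = o(x)` -/
def Lo (d : ℝ × ℝ → ℂ) : Prop := ∀ t : ℝ, 0 < t → ∃ x0, ∀ q : ℝ × ℝ, x0 ≤ q.1 → ‖d q‖ ≤ t * q.1

/-- `d` is not `O(x)` -/
def Unb (d : ℝ × ℝ → ℂ) : Prop := ∀ C x0 : ℝ, ∃ q : ℝ × ℝ, x0 ≤ q.1 ∧ C * q.1 < ‖d q‖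

/-- Fourier coefficients on the circle `x = R` -/
def bc (R : ℝ) (d : ℝ × ℝ → ℂ) (m : ℤ) : ℂ := Ra.fc (fun θ => d (R, θ)) m

/-- (J1) the slowly growing Jacobi field with Dirichlet modes `|m| ≥ 2` those of `b` -/
structure J1 (v : ℝ × ℝ → ℂ) (R : ℝ) (b : Wi (B1.omP 2)) (d : ℝ × ℝ → ℂ) : Prop where
  jac : Jac v R d
  lo : Lo d
  inner : ∀ m : ℤ, 2 ≤ |m| → bc R d m = Wi.co b m

/-- (J2) the fast growing Jacobi field -/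
structure J2 (v : ℝ × ℝ → ℂ) (R : ℝ) (d : ℝ × ℝ → ℂ) : Prop where
  jac : Jac v R d
  unb : Unb d
  inner : ∀ m : ℤ, 2 ≤ |m| → bc R d m = 0

end Crest.Agent.N250.Lg

end
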