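import Mathlib

/-! Row 250, block R0 (helper28): the linearised gluing system, abstract form. -/

set_option autoImplicit false
open Finset

noncomputable section

namespace Crest.Agent.N250.Lg

/-- `V` functions, `AA` sources, `B` boundary data, `M` slow data; `κ` core pairings,
`α` ends (`a`-pairings), `γ` rotations -/
structure LD (V AA B M κ α γ : Type) [AddCommGroup V] [Module ℂ V] [AddCommGroup AA] [Module ℂ AA]
    [AddCommGroup B] [Module ℂ B] [AddCommGroup M] [Module ℂ M] [Fintype κ] [Fintype α]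
    [Fintype γ] where
  H : Submodule ℂ V
  L : V →ₗ[ℂ] V
  ι : AA →ₗ[ℂ] V
  ψ : κ ⊕ α → V
  Pr : V →ₗ[ℂ] (κ ⊕ α → ℂ)
  Gu : (AA × (κ ⊕ α → ℂ)) →ₗ[ℂ] V
  Gc : (AA × (κ ⊕ α → ℂ)) →ₗ[ℂ] (κ ⊕ α → ℂ)
  u : α → V
  Jh : (γ → ℂ) →ₗ[ℂ] V
  r : (γ → ℂ) →ₗ[ℂ] AA
  Dat : V →ₗ[ℂ] B
  Ph : B → V
  S0 : B →ₗ[ℂ] AA
  pr : B →ₗ[ℂ] M
  d0 : B →ₗ[ℂ] M
  Gu_mem : ∀ q, Gu q ∈ H
  L_Gu : ∀ q, L (Gu q) = ι q.1 + ∑ k, Gc q k • ψ k
  Pr_Gu : ∀ q, Pr (Gu q) = q.2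
  uniq : ∀ v ∈ H, ∀ c : κ → ℂ, L v = ∑ k, c k • ψ (.inl k) → (∀ k, Pr v (.inl k) = 0) → v = 0
  uniq' : ∀ v ∈ H, ∀ c : κ ⊕ α → ℂ, L v = ∑ k, c k • ψ k → Pr v = 0 → v = 0
  u_mem : ∀ l, u l ∈ H
  L_u : ∀ l, L (u l) = ψ (.inr l)
  Pr_u : ∀ l k, Pr (u l) (.inl k) = 0
  Jh_mem : ∀ β, Jh β ∈ H
  Pr_Jh : ∀ β, Pr (Jh β) = 0
  ι_r : ∀ β, ι (r β) = L (Jh β)
  Ph_mem : ∀ b, Ph b ∈ H
  Pr_Ph : ∀ b, Pr (Ph b) = 0
  Dat_Ph : ∀ b, Dat (Ph b) = 0
  ι_S0 : ∀ b, ι (S0 b) = -L (Ph b)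
  slow : ∀ (c : α → ℂ) (β : γ → ℂ),
    pr (Dat (∑ l, c l • u l - Jh β)) = d0 (Dat (∑ l, c l • u l - Jh β)) → c = 0 ∧ β = 0

namespace LD

variable {V AA B M κ α γ : Type} [AddCommGroup V] [Module ℂ V] [AddCommGroup AA] [Module ℂ AA]
  [AddCommGroup B] [Module ℂ B] [AddCommGroup M] [Module ℂ M] [Fintype κ] [Fintype α] [Fintype γ]
  (D : LD V AA B M κ α γ)

/-- the linearised boundary datum -/
def bd (ξ : AA × (κ ⊕ α → ℂ) × (γ → ℂ)) : B := D.Dat (D.Gu (ξ.1, ξ.2.1))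

/-- the linearised system -/
def sys (t : ℂ) (ξ : AA × (κ ⊕ α → ℂ) × (γ → ℂ)) : AA × (κ → ℂ) × M :=
  (ξ.1 + D.r ξ.2.2 - D.S0 (D.bd ξ), fun k => t * ξ.2.1 (.inl k), D.pr (D.bd ξ) - D.d0 (D.bd ξ))

theorem Gu_eq {v : V} (hv : v ∈ D.H) {f : AA} {c : κ ⊕ α → ℂ}
    (h : D.L v = D.ι f + ∑ k, c k • D.ψ k) : D.Gu (f, D.Pr v) = v := by
  rw [← sub_eq_zero]
  refine D.uniq' _ (sub_mem (D.Gu_mem _) hv) (D.Gc (f, D.Pr v) - c) ?_ ?_
  · rw [map_sub, D.L_Gu, h]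
    simp only [Pi.sub_apply, sub_smul, sum_sub_distrib]
    abel
  · rw [map_sub, D.Pr_Gu, sub_self]

theorem Gu_S0 (b : B) : D.Gu (D.S0 b, 0) = -D.Ph b := by
  have := D.Gu_eq (v := -D.Ph b) (neg_mem (D.Ph_mem b)) (f := D.S0 b) (c := 0)
    (by rw [map_neg, D.ι_S0]; simp)
  rwa [map_neg, D.Pr_Ph, neg_zero] at this

theorem sys_inj {t : ℂ} (ht : t ≠ 0) {ξ : AA × (κ ⊕ α → ℂ) × (γ → ℂ)} (h : D.sys t ξ = 0) :
    ξ = 0 := by
  obtain ⟨f, η, β⟩ := ξ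
  simp only [sys, Prod.mk_eq_zero] at h
  obtain ⟨h1, h2, h3⟩ := h
  set b := D.bd (f, η, β) with hb
  set w := D.Gu (f, η) with hw
  set c := D.Gc (f, η)
  have hη : ∀ k, η (.inl k) = 0 := fun k => (mul_eq_zero.1 (congrFun h2 k)).resolve_left ht
  have hf : f = D.S0 b - D.r β := by rw [← sub_eq_zero, ← h1]; abel
  set v := w + D.Ph b + D.Jh β with hv
  have vm : v ∈ D.H := add_mem (add_mem (D.Gu_mem _) (D.Ph_mem _)) (D.Jh_mem _)
  have Lv : D.L v = ∑ k, c k • D.ψ k := by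
    have hι : D.ι f = -D.L (D.Ph b) - D.ι (D.r β) := by rw [← D.ι_S0, ← map_sub, ← hf]
    rw [hv, map_add, map_add, hw, D.L_Gu, ← D.ι_r]
    change D.ι f + _ + _ + _ = _
    rw [hι]; abel
  have Pv : D.Pr v = η := by rw [hv, map_add, map_add, D.Pr_Ph, D.Pr_Jh, hw, D.Pr_Gu]; simp
  have e1 : v = ∑ l, c (.inr l) • D.u l := by
    rw [← sub_eq_zero]
    refine D.uniq _ (sub_mem vm (Submodule.sum_mem _ fun l _ => D.H.smul_mem _ (D.u_mem l)))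
      (fun k => c (.inl k)) ?_ fun k => ?_
    · rw [map_sub, Lv, map_sum, Fintype.sum_sum_type]
      simp only [map_smul, D.L_u]
      abel
    · rw [map_sub, map_sum, Pi.sub_apply, Pv, Finset.sum_apply]
      simp only [map_smul, Pi.smul_apply, D.Pr_u, smul_zero, sum_const_zero, sub_zero]
      exact hη k
  have e2 : D.Dat (∑ l, c (.inr l) • D.u l - D.Jh β) = b := by
    rw [← e1, hv, add_sub_cancel_right, map_add, D.Dat_Ph, add_zero]; rfl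
  obtain ⟨ca, β0⟩ := D.slow (fun l => c (.inr l)) β (by rw [e2]; exact sub_eq_zero.1 h3)
  have v0 : v = 0 := by
    rw [e1]; exact sum_eq_zero fun l _ => by rw [show c (.inr l) = 0 from congrFun ca l, zero_smul]
  have η0 : η = 0 := by rw [← Pv, v0, map_zero]
  have b0 : b = 0 := by
    rw [← e2, ← e1, v0, β0]; simp
  rw [hf, b0, β0, η0]; simp

/-- the system as a linear map -/
def sysL (t : ℂ) : (AA × (κ ⊕ α → ℂ) × (γ → ℂ)) →ₗ[ℂ] AA × (κ → ℂ) × M where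
  toFun := D.sys t
  map_add' x y := by
    have : D.bd (x + y) = D.bd x + D.bd y := by
      simp only [bd, ← map_add]; rfl
    simp only [sys, this, map_add, Prod.fst_add, Prod.snd_add, Prod.mk_add_mk, Pi.add_apply]
    refine Prod.ext (by abel_nf) (Prod.ext (funext fun k => by simp [mul_add]) (by abel_nf))
  map_smul' a x := by
    have : D.bd (a • x) = a • D.bd x := by
      simp only [bd, ← map_smul]; rfl
    simp only [sys, this, map_smul, Prod.smul_fst, Prod.smul_snd, Prod.smul_mk, Pi.smul_apply,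
      RingHom.id_apply, smul_sub, smul_add]
    refine Prod.ext rfl (Prod.ext (funext fun k => by simp [mul_left_comm]) rfl)

/-- the source that solves the first equation -/
def lift : (AA × (κ ⊕ α → ℂ) × (γ → ℂ)) →ₗ[ℂ] AA × (κ ⊕ α → ℂ) × (γ → ℂ) :=
  let g := LinearMap.fst ℂ AA _ - D.r ∘ₗ LinearMap.snd ℂ _ _ ∘ₗ LinearMap.snd ℂ AA _
  (g + D.S0 ∘ₗ D.Dat ∘ₗ D.Gu ∘ₗ g.prod (LinearMap.fst ℂ _ _ ∘ₗ LinearMap.snd ℂ AA _)).prod
    (LinearMap.snd ℂ AA _)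

theorem sys_lift (t : ℂ) (ξ : AA × (κ ⊕ α → ℂ) × (γ → ℂ)) :
    (D.sys t (D.lift ξ)).1 = ξ.1 := by
  obtain ⟨g, η, β⟩ := ξ
  have e : D.lift (g, η, β) = (g - D.r β + D.S0 (D.Dat (D.Gu (g - D.r β, η))), η, β) := rfl
  have : D.bd (D.lift (g, η, β)) = D.Dat (D.Gu (g - D.r β, η)) := by
    rw [e, bd]
    have e2 : ∀ a s : AA, ((a + s, η) : AA × (κ ⊕ α → ℂ)) = (a, η) + (s, 0) := by simp
    simp only
    rw [e2, map_add, D.Gu_S0, map_add, map_neg, D.Dat_Ph]; simp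
  simp only [sys, this]
  rw [e]
  change g - D.r β + _ + D.r β - _ = g
  abel

theorem sys_bij [FiniteDimensional ℂ M]
    (hM : Module.finrank ℂ M = Fintype.card α + Fintype.card γ) {t : ℂ} (ht : t ≠ 0) :
    Function.Bijective (D.sys t) := by
  have inj : Function.Injective (D.sysL t) :=
    (injective_iff_map_eq_zero _).2 fun _ h => D.sys_inj ht h
  refine ⟨inj, ?_⟩
  let N := LinearMap.snd ℂ AA _ ∘ₗ D.sysL t ∘ₗ D.lift ∘ₗ LinearMap.inr ℂ AA _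
  have Ninj : Function.Injective N := (injective_iff_map_eq_zero _).2 fun q hq => by
    have h1 : D.sys t (D.lift (0, q)) = 0 := Prod.ext (D.sys_lift t _) hq
    exact congrArg Prod.snd (D.sys_inj ht h1)
  have Nsur : Function.Surjective N := by
    refine (LinearMap.injective_iff_surjective_of_finrank_eq_finrank ?_).1 Ninj
    simp only [Module.finrank_prod, Module.finrank_fintype_fun_eq_card, Fintype.card_sum, hM]
    omega
  rintro ⟨g, y⟩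
  obtain ⟨q, hq⟩ := Nsur (y - (D.sys t (D.lift (g, 0))).2)
  refine ⟨D.lift (g, q), Prod.ext (D.sys_lift t _) ?_⟩
  have e : ((g, q) : AA × _) = (g, 0) + (0, q) := by simp
  have h2 : D.sys t (D.lift (g, q)) = D.sys t (D.lift (g, 0)) + D.sys t (D.lift (0, q)) := by
    rw [e, map_add]; exact (D.sysL t).map_add _ _
  rw [h2, Prod.snd_add]
  change _ + N q = y
  rw [hq]; abel

/-- the response to the end parameter `a'` has non zero `a`-pairings -/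
theorem resp {t : ℂ} (ht : t ≠ 0) {Jc : V} (hJ : Jc ∈ D.H) (hP : D.Pr Jc = 0) {s : AA}
    (hs : D.ι s = -D.L Jc) (hD : D.Dat Jc = 0) {d : M}
    {ξ : AA × (κ ⊕ α → ℂ) × (γ → ℂ)} (h : D.sys t ξ = (s, 0, d))
    (h0 : ∀ a, ξ.2.1 (.inr a) = 0) :
    D.pr (D.Dat (-D.Jh ξ.2.2)) = D.d0 (D.Dat (-D.Jh ξ.2.2)) + d := by
  obtain ⟨f, η, β⟩ := ξ
  simp only [sys, Prod.mk.injEq] at h
  obtain ⟨h1, h2, h3⟩ := h
  set b := D.bd (f, η, β) with hb
  have η0 : η = 0 := by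
    funext k
    rcases k with k | a
    · exact (mul_eq_zero.1 (congrFun h2 k)).resolve_left ht
    · exact h0 a
  have hf : f = s + D.S0 b - D.r β := by rw [← h1]; abel
  have v0 : D.Gu (f, η) + D.Ph b + D.Jh β + Jc = 0 := by
    refine D.uniq' _ (add_mem (add_mem (add_mem (D.Gu_mem _) (D.Ph_mem _)) (D.Jh_mem _)) hJ)
      (D.Gc (f, η)) ?_ ?_
    · have hι : D.ι f = -D.L Jc + -D.L (D.Ph b) - D.ι (D.r β) := by
        rw [← D.ι_S0, ← hs, ← map_add, ← map_sub, ← hf]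
      rw [map_add, map_add, map_add, D.L_Gu, ← D.ι_r]
      change D.ι f + _ + _ + _ + _ = _
      rw [hι]; abel
    · rw [map_add, map_add, map_add, D.Pr_Ph, D.Pr_Jh, hP, D.Pr_Gu, η0]; simp
  have e : D.Dat (-D.Jh β) = b := by
    have : -D.Jh β = D.Gu (f, η) + D.Ph b + Jc := by
      rw [neg_eq_iff_eq_neg, eq_neg_iff_add_eq_zero, ← v0]; abel
    rw [this, map_add, map_add, D.Dat_Ph, hD, add_zero, add_zero]; rfl
  simp only
  rw [e, ← h3]; abel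

end LD

/-- the linearised system as a continuous linear equivalence -/
theorem LD.exists_equiv {V AA B M κ α γ : Type} [AddCommGroup V] [Module ℂ V]
    [NormedAddCommGroup AA] [NormedSpace ℂ AA] [CompleteSpace AA] [AddCommGroup B] [Module ℂ B]
    [NormedAddCommGroup M] [NormedSpace ℂ M] [FiniteDimensional ℂ M] [Fintype κ] [Fintype α]
    [Fintype γ] (D : LD V AA B M κ α γ)
    (hM : Module.finrank ℂ M = Fintype.card α + Fintype.card γ) {t : ℂ} (ht : t ≠ 0)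
    (T : (AA × (κ ⊕ α → ℂ) × (γ → ℂ)) →L[ℂ] AA × (κ → ℂ) × M) (hT : ∀ ξ, T ξ = D.sys t ξ) :
    ∃ A : (AA × (κ ⊕ α → ℂ) × (γ → ℂ)) ≃L[ℂ] AA × (κ → ℂ) × M, ∀ ξ, A ξ = T ξ := by
  have hb : Function.Bijective T := by rw [funext hT]; exact D.sys_bij hM ht
  have := FiniteDimensional.complete ℂ M
  exact ⟨ContinuousLinearEquiv.ofBijective T (LinearMap.ker_eq_bot.2 hb.1)
    (LinearMap.range_eq_top.2 hb.2), fun _ => rfl⟩

end Crest.Agent.N250.Lg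

end
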