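import Crest.Agent.N250.R0.Core
import Crest.Agent.N250.Lg.Jac

/-! Row 250, block R0 (helper28): families whose last members come from fast Jacobi fields. -/

set_option autoImplicit false

noncomputable section

namespace Crest.Agent.N250.R0

variable {S : Mv} {T : St S}

/-- `φ (inr j) = L (u j)`, `u j` lives on the end `j` and grows fast -/
structure Fa.Sl (F : Fa T) (u : Fin T.p → T.G.R) : Prop where
  core : T.G.Fam fun k => F.φ (.inl k)
  l2 : ∀ j, T.G.gR (u j) ≠ ⊤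
  LL : ∀ j, T.G.S.LL (u j) = F.φ (.inr j)
  ip : ∀ k j, T.G.ipR (F.φ (.inl k)) (u j) = 0
  off : ∀ i j, i ≠ j → ∀ q : ℝ × ℝ, T.R ≤ q.1 → (u i).1 (T.ψ j q) = 0
  unb : ∀ j, Lg.Unb fun q => T.rS j q / T.nu j q * ((u j).1 (T.ψ j q) : ℂ)

end Crest.Agent.N250.R0

end
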