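import Crest.Agent.N250.Lin.Green

/-! Row 250, block R0 (helper28): Dirichlet uniqueness on an end and extension of coercive families. -/

set_option autoImplicit false
set_option linter.unusedSectionVars false
open MeasureTheory Set Filter Topology Function
open scoped ContDiff
open Crest.Agent.N222 Crest.Agent.N222.Imm

noncomputable section

namespace Crest.Agent.N250.Lin

variable {d : ℕ} {ι : Type} [Fintype ι] [DecidableEq ι] {X : Type} [TopologicalSpace X]
  [T2Space X] [SecondCountableTopology X] [MeasurableSpace X] [BorelSpace X]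

namespace Gd

variable {G : Gd d ι X} {f g u v η : X → ℝ} {κ : Type} [Fintype κ] {ψ : κ → X → ℝ}

theorem H1.bmul (hu : G.H1 u) (hf : G.M.Sm f) {C K : ℝ} (h0 : ∀ p, |f p| ≤ C)
    (h1 : ∀ p, G.g1 f p ≤ K) : G.H1 fun p => f p * u p :=
  h1_of_D (hu.toS2.bmul hf h0) fun a => D_mul' hf hu.sm a ▸ ((hu.D a).bmul hf h0).add (by
    exact hu.toS2.bmul (hf.D a) (C := √K) fun p => Real.abs_le_sqrt ((D_sq_le f a p).trans (h1 p)))

theorem Q_cut (hu : G.S2 u) (hL : G.S2 (G.L u)) (hη : G.M.Sm η) {K : ℝ} (h0 : ∀ p, |η p| ≤ 1)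
    (h1 : ∀ p, G.g1 η p ≤ K) (hz : ∀ p, η p * G.L u p = 0) :
    G.Q (fun p => η p * u p) (fun p => η p * u p) = ∫ p, G.g1 η p * u p ^ 2 ∂G.nu := by
  have a1 := (hu.h1 hL).bmul hη h0 h1
  have a2 := a1.bmul hη h0 h1
  have a3 := ip_L hu hL a2
  have a4 : G.ip (G.L u) (fun p => η p * (η p * u p)) = 0 := by
    refine integral_eq_zero_of_ae (.of_forall fun p => ?_)
    simp only [Pi.zero_apply]
    rw [← mul_assoc, mul_comm (G.L u p), hz, zero_mul]
  have a5 : G.Q u (fun p => η p * (η p * u p)) = 0 := by linarith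
  rw [← sub_zero (G.Q _ _), ← a5, Q, Q, ← integral_sub (intg_Q a1 a1) (intg_Q (hu.h1 hL) a2)]
  refine integral_congr_ae (.of_forall fun p => ?_)
  simp only
  rw [gam_mul hη hu.sm, gam_comm u (fun p => η p * (η p * u p)), gam_mul hη a1.sm,
    gam_comm u (fun p => η p * u p), gam_comm η (fun p => η p * u p), gam_mul hη hu.sm,
    gam_mul hη hu.sm, gam_comm u η]
  simp only [g1]
  ring

theorem exists_dst : ∃ M : ℝ, ∀ x, deriv Real.smoothTransition x ^ 2 ≤ M ∧
    (x ≤ 0 ∨ 1 ≤ x → deriv Real.smoothTransition x = 0) := by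
  have h : ∀ x : ℝ, x ≤ 0 ∨ 1 ≤ x → deriv Real.smoothTransition x = 0 := by
    rintro x (hx | hx)
    · refine IsLocalMin.deriv_eq_zero (Eventually.of_forall fun y => ?_)
      rw [Real.smoothTransition.zero_of_nonpos hx]; exact Real.smoothTransition.nonneg y
    · refine IsLocalMax.deriv_eq_zero (Eventually.of_forall fun y => ?_)
      rw [Real.smoothTransition.one_of_one_le hx]; exact Real.smoothTransition.le_one y
  have hc : Continuous fun x => deriv Real.smoothTransition x ^ 2 :=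
    ((Real.smoothTransition.contDiff (n := 1)).continuous_deriv le_rfl).pow 2
  obtain ⟨M, hM⟩ := (isCompact_Icc (a := (0 : ℝ)) (b := 1)).bddAbove_image hc.continuousOn
  refine ⟨max M 0, fun x => ⟨?_, h x⟩⟩
  by_cases hx : x ≤ 0 ∨ 1 ≤ x
  · simp [h x hx]
  · push Not at hx
    exact (hM ⟨x, ⟨hx.1.le, hx.2.le⟩, rfl⟩).trans (le_max_left _ _)

/-- **Dirichlet uniqueness** on the end `0 < t` -/
theorem Fam.end_uniq [IsFiniteMeasure G.nu] (hψ : G.Fam ψ) {t h : X → ℝ} (ht : G.M.Sm t) {K C : ℝ}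
    (hK : ∀ p, 0 < t p → t p < 1 → G.g1 t p ≤ K)
    (hH : ∀ δ : ℝ, 0 < δ → ∃ H, G.S2 H ∧ G.S2 (G.L H) ∧ ∀ p, δ < t p → H p = h p ∧ G.L H p = 0)
    (hb : ∀ p, 0 < t p → t p < 1 → |h p| ≤ C * t p) (h0 : ∀ k p, 0 < t p → ψ k p = 0)
    {p₀ : X} (hp : 0 < t p₀) : h p₀ = 0 := by
  obtain ⟨c, hc, hco⟩ := hψ.coer
  obtain ⟨M, hM⟩ := exists_dst
  have M0 : 0 ≤ M := (sq_nonneg _).trans (hM 0).1
  let e : ℝ → X → ℝ := fun δ p => Real.smoothTransition ((t p - δ) / δ)
  have e0 : ∀ δ, 0 < δ → ∀ p, t p ≤ δ → e δ p = 0 := fun δ hδ p h =>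
    Real.smoothTransition.zero_of_nonpos (div_nonpos_of_nonpos_of_nonneg (by linarith) hδ.le)
  have e1 : ∀ δ, 0 < δ → ∀ p, 2 * δ ≤ t p → e δ p = 1 := fun δ hδ p h =>
    Real.smoothTransition.one_of_one_le ((one_le_div hδ).2 (by linarith))
  have eb : ∀ δ p, |e δ p| ≤ 1 := fun δ p => by
    rw [abs_of_nonneg (Real.smoothTransition.nonneg _)]; exact Real.smoothTransition.le_one _
  have es : ∀ δ, G.M.Sm (e δ) := fun δ => ht.comp (g := fun s => Real.smoothTransition ((s - δ) / δ))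
    (Real.smoothTransition.contDiff.comp ((contDiff_id.sub contDiff_const).div_const _))
  have eg : ∀ δ p, G.g1 (e δ) p =
      deriv Real.smoothTransition ((t p - δ) / δ) ^ 2 / δ ^ 2 * G.g1 t p := fun δ p => by
    have hd : HasDerivAt (fun s => Real.smoothTransition ((s - δ) / δ))
        (deriv Real.smoothTransition ((t p - δ) / δ) * (1 / δ)) (t p) :=
      (((Real.smoothTransition.contDiff (n := 1)).differentiable one_ne_zero) _).hasDerivAt.comp _
        (((hasDerivAt_id _).sub_const δ).div_const δ)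
    simp only [g1_eq, Finset.mul_sum]
    refine Finset.sum_congr rfl fun a _ => ?_
    rw [show G.D a (e δ) p = _ from D_comp (ht.diffAt p) hd a]
    ring
  have ez : ∀ δ, 0 < δ → ∀ p, ¬(δ < t p ∧ t p < 2 * δ) → G.g1 (e δ) p = 0 := fun δ hδ p h => by
    rw [eg, (hM _).2, zero_pow two_ne_zero, zero_div, zero_mul]
    rcases not_and_or.1 h with h | h
    · exact .inl (div_nonpos_of_nonpos_of_nonneg (by linarith) hδ.le)
    · exact .inr ((one_le_div hδ).2 (by linarith))
  have el : ∀ δ, 0 < δ → δ ≤ 1 / 2 → ∀ p, G.g1 (e δ) p ≤ M / δ ^ 2 * |K| := fun δ hδ hδ' p => by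
    by_cases h : δ < t p ∧ t p < 2 * δ
    · rw [eg]
      exact mul_le_mul (div_le_div_of_nonneg_right (hM _).1 (by positivity))
        ((hK p (by linarith) (by linarith)).trans (le_abs_self _)) (g1_nonneg _ _) (by positivity)
    · rw [ez δ hδ p h]; positivity
  have eu : ∀ δ, 0 < δ → ∀ H : X → ℝ, (∀ p, δ < t p → H p = h p ∧ G.L H p = 0) →
      (fun p => e δ p * H p) = fun p => e δ p * h p := fun δ hδ H hH => funext fun p => by
    rcases le_or_gt (t p) δ with h1 | h1
    · rw [e0 δ hδ p h1, zero_mul, zero_mul]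
    · rw [(hH p h1).1]
  have key : ∀ δ, 0 < δ → δ ≤ 1 / 2 → G.S2 (fun p => e δ p * h p) ∧ c * G.n0 (fun p => e δ p * h p) ≤
      4 * M * |K| * C ^ 2 * G.nu.real {p | 0 < t p ∧ t p < 2 * δ} := fun δ hδ hδ' => by
    obtain ⟨H, s1, s2, s3⟩ := hH δ hδ
    have a1 := (s1.h1 s2).bmul (es δ) (eb δ) (el δ hδ hδ')
    have a2 := Q_cut s1 s2 (es δ) (eb δ) (el δ hδ hδ') fun p => by
      rcases le_or_gt (t p) δ with h1 | h1
      · rw [e0 δ hδ p h1, zero_mul]
      · rw [(s3 p h1).2, mul_zero]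
    have a3 := hco _ a1 fun k => by
      refine integral_eq_zero_of_ae (.of_forall fun p => ?_)
      rcases le_or_gt (t p) δ with h1 | h1
      · simp [e0 δ hδ p h1]
      · simp [h0 k p (hδ.trans h1)]
    have ms : MeasurableSet {p | 0 < t p ∧ t p < 2 * δ} :=
      ((isOpen_lt continuous_const ht.continuous).inter
        (isOpen_lt ht.continuous continuous_const)).measurableSet
    have a4 : ∫ p, G.g1 (e δ) p * H p ^ 2 ∂G.nu ≤
        ∫ p, indicator {p | 0 < t p ∧ t p < 2 * δ} (fun _ => 4 * M * |K| * C ^ 2) p ∂G.nu := by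
      refine integral_mono_of_nonneg (.of_forall fun p => mul_nonneg (g1_nonneg _ _) (sq_nonneg _))
        ((integrable_const _).indicator ms) (.of_forall fun p => ?_)
      by_cases h1 : δ < t p ∧ t p < 2 * δ
      · have h2 : H p ^ 2 ≤ (C * t p) ^ 2 := by
          rw [(s3 p h1.1).1]
          exact sq_le_sq' (abs_le.1 (hb p (by linarith) (by linarith))).1
            (abs_le.1 (hb p (by linarith) (by linarith))).2
        have h3 : t p ^ 2 ≤ (2 * δ) ^ 2 := pow_le_pow_left₀ (by linarith) h1.2.le 2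
        simp only
        rw [indicator_of_mem (show p ∈ {p | 0 < t p ∧ t p < 2 * δ} from ⟨by linarith, h1.2⟩)]
        calc _ ≤ M / δ ^ 2 * |K| * (C ^ 2 * (2 * δ) ^ 2) := by
              refine mul_le_mul (el δ hδ hδ' p) (h2.trans ?_) (sq_nonneg _) (by positivity)
              rw [mul_pow]; gcongr
          _ = _ := by field_simp; ring
      · simp only [ez δ hδ p h1, zero_mul]
        exact indicator_nonneg (fun _ _ => by positivity) _
    rw [integral_indicator_const _ ms, smul_eq_mul, mul_comm] at a4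
    rw [a2, eu δ hδ H s3] at a3
    rw [eu δ hδ H s3] at a1
    exact ⟨a1.toS2, by nlinarith [n1_nonneg (G := G) fun p => e δ p * h p]⟩
  set δ₀ := min (t p₀ / 2) (1 / 2) with hδ₀
  have d0 : 0 < δ₀ := lt_min (by linarith) (by norm_num)
  have d1 : δ₀ ≤ 1 / 2 := min_le_right _ _
  have d2 : 2 * δ₀ ≤ t p₀ := by linarith [min_le_left (t p₀ / 2) (1 / 2)]
  have lim : Tendsto (fun n : ℕ => G.nu.real {p | 0 < t p ∧ t p < 2 * (δ₀ / 2 / (n + 1))}) atTop
      (𝓝 0) := by
    have l1 := tendsto_measure_iInter_atTop (μ := G.nu)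
      (s := fun n : ℕ => {p | 0 < t p ∧ t p < 2 * (δ₀ / 2 / (n + 1))})
      (fun n => ((isOpen_lt continuous_const ht.continuous).inter
        (isOpen_lt ht.continuous continuous_const)).measurableSet.nullMeasurableSet)
      (fun n m hnm p hp => ⟨hp.1, hp.2.trans_le (by gcongr)⟩) ⟨0, measure_ne_top _ _⟩
    have l2 : ⋂ n : ℕ, {p | 0 < t p ∧ t p < 2 * (δ₀ / 2 / (n + 1))} = ∅ := by
      refine eq_empty_of_forall_notMem fun p hp => ?_
      rw [mem_iInter] at hp
      have l3 := (tendsto_one_div_add_atTop_nhds_zero_nat (𝕜 := ℝ)).const_mul δ₀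
      rw [mul_zero] at l3
      have := ge_of_tendsto' l3 fun n => (hp n).2.le.trans_eq (by ring)
      linarith [(hp 0).1]
    rw [l2, measure_empty] at l1
    exact (ENNReal.tendsto_toReal ENNReal.zero_ne_top).comp l1
  have fin : c * G.n0 (fun p => e δ₀ p * h p) ≤ 0 := by
    have l1 := lim.const_mul (4 * M * |K| * C ^ 2)
    rw [mul_zero] at l1
    refine ge_of_tendsto' l1 fun n => ?_
    have n1 : 0 < δ₀ / 2 / (n + 1) := by positivity
    have n2 : δ₀ / 2 / (n + 1) ≤ δ₀ / 2 := div_le_self (by linarith) (by linarith [n.cast_nonneg (α := ℝ)])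
    obtain ⟨k1, k2⟩ := key _ n1 (by linarith)
    refine le_trans (mul_le_mul_of_nonneg_left ?_ hc.le) k2
    refine integral_mono (key _ d0 d1).1.sq k1.sq fun p => ?_
    simp only
    rcases le_or_gt (t p) δ₀ with h1 | h1
    · rw [e0 _ d0 p h1, zero_mul, zero_pow two_ne_zero]; exact sq_nonneg _
    · rw [e1 _ n1 p (by linarith), mul_pow, mul_pow]
      exact mul_le_mul_of_nonneg_right (sq_le_sq' (abs_le.1 (eb _ p)).1 (abs_le.1 (eb _ p)).2)
        (sq_nonneg _)
  have z := eq_zero_of_n0 (key _ d0 d1).1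
    (le_antisymm (by nlinarith [n0_nonneg (G := G) fun p => e δ₀ p * h p]) (n0_nonneg _))
  simpa [e1 _ d0 p₀ d2] using congrFun z p₀

variable {κ' : Type} [Fintype κ'] {w : κ' → X → ℝ}

/-- the Gram form of `L w` against `w` is definite -/
theorem Fam.gram (hψ : G.Fam ψ) (hw : ∀ l, G.S2 (w l)) (hL : ∀ l, G.M.Tst (G.L (w l)))
    (h0 : ∀ k l, G.ip (ψ k) (w l) = 0) {x : κ' → ℝ}
    (hx : G.ip (fun p => ∑ l, x l * G.L (w l) p) (fun p => ∑ l, x l * w l p) = 0) :
    (fun p => ∑ l, x l * w l p) = 0 := by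
  obtain ⟨c, hc, hco⟩ := hψ.coer
  have a1 := s2_lc hw x
  have a2 : G.L (fun p => ∑ l, x l * w l p) = fun p => ∑ l, x l * G.L (w l) p :=
    funext (L_lc (fun l => (hw l).sm) x)
  have a3 : G.S2 (G.L fun p => ∑ l, x l * w l p) := a2 ▸ s2_lc (fun l => tst_s2 (hL l)) x
  have a4 := hco _ (a1.h1 a3) fun k => by simp [ip_lc (hψ.s2 k) hw, h0]
  have a5 := ip_L a1 a3 (a1.h1 a3)
  rw [a2, hx] at a5
  refine eq_zero_of_n0 a1 (le_antisymm ?_ (n0_nonneg _))
  nlinarith [n1_nonneg (G := G) fun p => ∑ l, x l * w l p]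

/-- **extension** of a coercive family by `L w` -/
theorem Fam.sum (hψ : G.Fam ψ) (hw : ∀ l, G.S2 (w l)) (hL : ∀ l, G.M.Tst (G.L (w l)))
    (h0 : ∀ k l, G.ip (ψ k) (w l) = 0) (hi : LinearIndependent ℝ w) :
    G.Fam (Sum.elim ψ fun l => G.L (w l)) := by
  refine hψ.ext (fun k => k.rec hψ.tst hL) (li_of fun x hx => ?_) ?_
  · simp only [Fintype.sum_sum_type, Sum.elim_inl, Sum.elim_inr] at hx
    have a1 := s2_lc hw fun l => x (.inr l)
    have a2 : (fun p => ∑ l, x (.inr l) * G.L (w l) p) = fun p => ∑ k, -x (.inl k) * ψ k p :=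
      funext fun p => by
        simp only [neg_mul, Finset.sum_neg_distrib]; linarith [hx p]
    have a3 := hψ.gram hw hL h0 (x := fun l => x (.inr l)) (by
      rw [a2, ip_comm, ip_lc a1 hψ.s2]
      simp [ip_comm _ (ψ _), ip_lc (hψ.s2 _) hw, h0])
    have a4 := li_zero hi (congrFun a3)
    have a5 := li_zero hψ.li (x := fun k => x (.inl k)) fun p => by
      simpa [show ∀ l, x (.inr l) = 0 from congrFun a4] using hx p
    exact funext fun k => k.rec (congrFun a5) (congrFun a4)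
  · rintro _ ⟨k, rfl⟩
    exact ⟨.inl k, rfl⟩

end Gd

end Crest.Agent.N250.Lin

end
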