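import Crest.Agent.N250.R0.Leaf
import Crest.Agent.N250.Wt.Grn2
import Crest.Agent.N250.Lg.Uq
import Crest.Agent.N250.Lg.Sl

/-! Row 250, block R0 (helper9): existence of the constraint family. -/

set_option autoImplicit false
set_option linter.unusedSectionVars false
open MeasureTheory Set Filter Topology
open scoped InnerProductSpace
open Crest.GeometryTopology.MCF

noncomputable section

namespace Crest.Agent.N250

theorem Lin.Gd.Fam.congr {d : ℕ} {ι : Type} [Fintype ι] [DecidableEq ι] {X : Type}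
    [TopologicalSpace X] [MeasurableSpace X] {G G' : Lin.Gd d ι X} {κ : Type} [Fintype κ]
    {ψ : κ → X → ℝ} (h : G.Fam ψ) (hM : G.M = G'.M) (hF : G.F = G'.F) (hc : G.c = G'.c) :
    G'.Fam ψ := by
  cases G
  cases G'
  simp only at hM hF hc
  subst hM hF hc
  obtain ⟨c0, h0, h1⟩ := h.coer
  exact ⟨h.tst, h.li, c0, h0, fun u hu hk => h1 u ⟨⟨hu.sm, hu.l2⟩, hu.d1⟩ hk⟩

namespace R0

open WS Wr

variable {S : Mv}

/-- the core family: for `R` large it is supported in the ball of radius `R - 7` -/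
theorem core_fam (S : Mv) : ∃ R1 : ℝ, ∀ T : St S, R1 ≤ T.R → ∃ (n0 : ℕ) (φ0 : Fin n0 → T.G.R),
    T.G.Fam φ0 ∧ ∀ k, ∀ p ∈ tsupport (φ0 k).1, ‖(p : E)‖ ≤ T.R - 7 := by
  by_cases h : Nonempty (St S)
  swap
  · exact ⟨0, fun T => (h ⟨T⟩).elim⟩
  obtain ⟨T0⟩ := h
  obtain ⟨n0, φ0, hφ⟩ := T0.G.exists_fam
  have hK : IsCompact (⋃ k, tsupport (φ0 k).1) := isCompact_iUnion fun k => (hφ.tst k).cs
  obtain ⟨C, hC⟩ := (hK.image (f := fun p : S.sl 0 => ‖(p : E)‖)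
    (continuous_subtype_val.norm)).bddAbove
  refine ⟨C + 7, fun T hT => ⟨n0, φ0, Lin.Gd.Fam.congr hφ rfl rfl rfl, fun k p hp => ?_⟩⟩
  have := hC ⟨p, mem_iUnion.2 ⟨k, hp⟩, rfl⟩
  simp only at this
  linarith

theorem St.notMem_tube (T : St S) {x : E} {a b : ℝ} (h : ‖x‖ ≤ a) (hab : a ≤ b) (j : Fin T.p) :
    (x, (0 : ℝ)) ∉ tube T.e j b := fun hx => by
  have h1 : b < xi T.e j x := hx.1
  linarith [(le_abs_self _).trans (abs_xi_le (e := T.e) j x)]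

/-- functions that vanish on the supports are orthogonal to the family -/
theorem St.ipR_eq_zero (T : St S) {φ u : T.G.R} {a : ℝ} (hφ : ∀ p ∈ tsupport φ.1, ‖(p : E)‖ ≤ a)
    (hu : ∀ p : S.sl 0, ‖(p : E)‖ ≤ a → u.1 p = 0) : T.G.ipR φ u = 0 := by
  refine integral_eq_zero_of_ae (.of_forall fun p => ?_)
  by_cases h : p ∈ tsupport φ.1
  · simp [hu p (hφ p h)]
  · simp [image_eq_zero_of_notMem_tsupport h]

/-- a fast growing field on the end `j` -/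
structure St.Uj (T : St S) (j : Fin T.p) (u : T.G.R) : Prop where
  l2 : T.G.gR u ≠ ⊤
  supp : ∀ p ∈ tsupport (T.G.S.LL u).1, ‖(p : E)‖ ≤ T.R - 1 ∧
    ∀ i, ((p : E), (0 : ℝ)) ∉ tube T.e i (T.R - 2)
  core : ∀ p : S.sl 0, ‖(p : E)‖ ≤ T.R - 7 → u.1 p = 0
  off : ∀ i, j ≠ i → ∀ q : ℝ × ℝ, T.R ≤ q.1 → u.1 (T.ψ i q) = 0
  unb : Lg.Unb fun q => T.rS j q / T.nu j q * (u.1 (T.ψ j q) : ℂ)

theorem St.li_uj (T : St S) {u : Fin T.p → T.G.R} (h : ∀ j, T.Uj j (u j)) :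
    LinearIndependent ℝ fun j => (u j).1 := by
  refine Fintype.linearIndependent_iff.2 fun c hc j => ?_
  obtain ⟨q, hq, h1⟩ := (h j).unb 0 T.R
  have h2 := congrFun hc (T.ψ j q)
  rw [Finset.sum_apply, Finset.sum_eq_single j (fun i _ hi => by
    simp [(h i).off j hi q hq]) (by simp)] at h2
  refine (mul_eq_zero.1 h2).resolve_right fun h3 => ?_
  simp [h3] at h1

/-- **the constraint family** -/
theorem St.exists_sl (T : St S) {n0 : ℕ} {φ0 : Fin n0 → T.G.R} {u : Fin T.p → T.G.R}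
    (hφ : T.G.Fam φ0) (s0 : ∀ k, ∀ p ∈ tsupport (φ0 k).1, ‖(p : E)‖ ≤ T.R - 7)
    (h : ∀ j, T.Uj j (u j)) : ∃ F : Fa T, F.Sl u := by
  have h1 : ∀ k l, T.G.ipR (φ0 k) (u l) = 0 := fun k l => T.ipR_eq_zero (s0 k) (h l).core
  have hc : ∀ l, HasCompactSupport (T.G.S.LL (u l)).1 := fun l =>
    (compact_sl T.P.shr.closed ((T.R - 1) ^ 2)).of_isClosed_subset (isClosed_tsupport _)
      fun p hp => pow_le_pow_left₀ (norm_nonneg _) ((h l).supp p hp).1 2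
  have h2 := Lin.Gd.Fam.sum (G := T.G.gd) (w := fun l => (u l).1) hφ
    (fun l => T.G.gd_s2.2 (h l).l2)
    (fun l => by rw [Geo.gd_L]; exact ⟨(T.G.S.LL (u l)).2, hc l⟩) h1 (T.li_uj h)
  have h3 : T.G.Fam (Sum.elim φ0 fun l => T.G.S.LL (u l)) := by
    have e : (fun k => (Sum.elim φ0 (fun l => T.G.S.LL (u l)) k).1) =
        Sum.elim (fun k => (φ0 k).1) fun l => T.G.gd.L (u l).1 :=
      funext fun k => by
        rcases k with k | l
        · rfl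
        · exact (T.G.gd_L _).symm
    change T.G.gd.Fam _
    rwa [e]
  refine ⟨⟨n0, _, h3, h3.grnS, ?_⟩, hφ, fun j => (h j).l2, fun _ => rfl, h1,
    fun i j hij => (h i).off j hij, fun j => (h j).unb⟩
  rintro (k | l)
  · exact fun p hp => ⟨(s0 k p hp).trans (by linarith), T.notMem_tube (s0 k p hp) (by linarith)⟩
  · exact (h l).supp

theorem sl_of {e : Ends S} (h : Ev e fun T => ∀ j, ∃ u, T.Uj j u) :
    Ev e fun T => ∃ (F : Fa T) (u : Fin T.p → T.G.R), F.Sl u := by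
  obtain ⟨R1, h1⟩ := core_fam S
  refine (h.and (Ev.of_R R1)).mono fun T _ ⟨h2, h3⟩ => ?_
  obtain ⟨n0, φ0, hφ, s0⟩ := h1 T h3
  choose u hu using h2
  obtain ⟨F, hF⟩ := T.exists_sl hφ s0 hu
  exact ⟨F, u, hF⟩

end R0

end Crest.Agent.N250

end

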