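import Crest.Agent.N250.Lg.Uq
import Crest.Agent.N250.Lg.Jac
import Crest.Agent.N250.Lp.Lin
import Crest.Agent.N250.Ch.Lift
import Crest.Agent.N250.Sw.Pg
import Crest.Agent.N250.Wt.Grn

/-! Row 250, block R0 (helper28): lifting Jacobi fields to an end; Dirichlet uniqueness. -/

set_option autoImplicit false
set_option linter.unusedSectionVars false
open Set Filter Topology
open scoped ContDiff

noncomputable section

namespace Crest.Agent.N250.Lg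

open Crest.Agent.N222 WS Po Lp EC Cj Gc

theorem Jac.ok {v d : ℝ × ℝ → ℂ} {R : ℝ} (h : Jac v R d) : Ok (Ioi R) d := ⟨h.sm, h.per⟩

theorem lip_bdry {F : ℝ × ℝ → ℂ} {R : ℝ} (h : ContDiffOn ℝ 1 F (Ici R ×ˢ univ))
    (hp : ∀ s θ, R ≤ s → F (s, θ + 2 * Real.pi) = F (s, θ))
    (h0 : ∀ θ, F (R, θ) = 0) : ∃ C, ∀ q : ℝ × ℝ, R ≤ q.1 → q.1 ≤ R + 1 → ‖F q‖ ≤ C * (q.1 - R) := by
  obtain ⟨K, hK⟩ := (h.mono (t := Icc R (R + 1) ×ˢ Icc (-Real.pi) Real.pi)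
    (prod_mono Icc_subset_Ici_self (subset_univ _))).exists_lipschitzOnWith one_ne_zero
    ((convex_Icc _ _).prod (convex_Icc _ _)) (isCompact_Icc.prod isCompact_Icc)
  refine ⟨K, fun ⟨x, θ⟩ h1 h2 => ?_⟩
  have h3 := toIocMod_mem_Ioc Real.two_pi_pos (-Real.pi) θ
  have h4 : toIocMod Real.two_pi_pos (-Real.pi) θ ∈ Icc (-Real.pi) Real.pi :=
    ⟨h3.1.le, by linarith [h3.2]⟩
  have h5 := hK.dist_le_mul (x, toIocMod Real.two_pi_pos (-Real.pi) θ) ⟨⟨h1, h2⟩, h4⟩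
    (R, toIocMod Real.two_pi_pos (-Real.pi) θ) ⟨⟨le_rfl, by linarith⟩, h4⟩
  have h6 : F (x, toIocMod Real.two_pi_pos (-Real.pi) θ) = F (x, θ) :=
    Function.Periodic.sub_zsmul_eq (f := fun θ => F (x, θ)) (fun θ => hp x θ h1) _
  rw [h0, dist_zero_right, h6, Prod.dist_eq, dist_self,
    max_eq_left dist_nonneg, Real.dist_eq, abs_of_nonneg (by linarith)] at h5
  exact h5

theorem eq_zero_of_fc {f : ℝ → ℂ} (hp : Function.Periodic f (2 * Real.pi)) (hc : Continuous f)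
    (h : ∀ m, Ra.fc f m = 0) (θ : ℝ) : f θ = 0 := by
  have := Ra.fc_hasSum hp hc (by rw [funext h]; exact summable_zero) θ
  simp only [h, zero_mul] at this
  exact this.unique hasSum_zero

variable {X : Type} [TopologicalSpace X] [MeasurableSpace X]

/-- `r ⟨n, ω⟩` -/
def nu (G : Geo X) (Q : N222.E (Fin 3) ≃ₗᵢ[ℝ] N222.E (Fin 3)) : G.SmC :=
  dot (Om G Q) G.SC.n

/-- the normal field `c d / τ` -/
def lf (G : Geo X) (Q : N222.E (Fin 3) ≃ₗᵢ[ℝ] N222.E (Fin 3)) (r : ℝ × ℝ → ℝ) (c : G.SmC) (d : ℝ × ℝ → ℂ) : G.SmC :=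
  lift G Q (c * nu G Q) fun q => d q / (r q : ℂ) ^ 2

/-- a function of the height -/
def cut {G : Geo X} (t : G.R) (a b : ℝ) : G.R :=
  ⟨fun p => Real.smoothTransition ((t.1 p - a) / (b - a)),
    Imm.Sm.comp t.2 (g := fun s => Real.smoothTransition ((s - a) / (b - a)))
      (Real.smoothTransition.contDiff.comp ((contDiff_id.sub contDiff_const).div_const _))⟩

/-- the end `R < x` is the set `0 < t` -/
structure Tb (G : Geo X) (Q : N222.E (Fin 3) ≃ₗᵢ[ℝ] N222.E (Fin 3)) (r : ℝ × ℝ → ℝ) (ψ : ℝ × ℝ → X) (t : G.R) (R : ℝ) :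
    Prop where
  R0 : 0 ≤ R
  pl : ∀ q : ℝ × ℝ, R ≤ q.1 → Pl G ψ Q r q
  ok : Ok (Ioi R) fun q => (r q : ℂ)
  per : ∀ s θ, R ≤ s → ψ (s, θ + 2 * Real.pi) = ψ (s, θ)
  one : ∀ q : ℝ × ℝ, R ≤ q.1 → 1 ≤ r q
  two : ∀ q : ℝ × ℝ, R ≤ q.1 → r q ≤ 2
  val : ∀ q : ℝ × ℝ, R ≤ q.1 → t.1 (ψ q) = q.1 - R
  onto : ∀ p, 0 < t.1 p → ∃ q : ℝ × ℝ, R < q.1 ∧ ψ q = p

variable {G : Geo X} {Q : N222.E (Fin 3) ≃ₗᵢ[ℝ] N222.E (Fin 3)} {r : ℝ × ℝ → ℝ} {ψ : ℝ × ℝ → X} {t : G.R} {R a b δ : ℝ}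
  {q : ℝ × ℝ} {c w : G.SmC} {d : ℝ × ℝ → ℂ} {p : X}

theorem cut_zero (h : a < b) (hp : t.1 p ≤ a) : (cut t a b).1 p = 0 :=
  Real.smoothTransition.zero_of_nonpos (div_nonpos_of_nonpos_of_nonneg (by linarith) (by linarith))

theorem cut_one (h : a < b) (hp : b ≤ t.1 p) : (cut t a b).1 p = 1 :=
  Real.smoothTransition.one_of_one_le ((one_le_div (by linarith)).2 (by linarith))

theorem abs_cut (p : X) : |(cut t a b).1 p| ≤ 1 :=
  (abs_of_nonneg (Real.smoothTransition.nonneg _)).trans_le (Real.smoothTransition.le_one _)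

theorem sp_cut (h : a < b) : Sp {p | a ≤ t.1 p} (G.oR (cut t a b)) :=
  sp_oR fun _ hp => cut_zero h (not_le.1 hp).le

theorem nu_val (h : Pl G ψ Q r q) : (nu G Q).1 (ψ q) = r q * nom G ψ Q q := by
  rw [nu, dot_val, val_Om h.eq.self_of_nhds, dot_comm, dot_frC_right]; rfl

theorem r_le_tau (h : Pl G ψ Q r q) : r q ≤ ‖tau G ψ Q r q‖ := by
  refine le_of_sq_le_sq ?_ (norm_nonneg _)
  rw [← norm_pow, h.tau_sq, h.QC_eq, Complex.norm_real]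
  refine le_trans ?_ (le_abs_self _)
  nlinarith [sq_nonneg (r q * d1 r q), sq_nonneg (d2 r q)]

theorem x2_val (h : Pl G ψ Q r q) : G.S.x2.1 (ψ q) = q.1 ^ 2 + r q ^ 2 := by
  rw [← norm_pX_sq (Q := Q), ← h.eq.self_of_nhds, EuclideanSpace.real_norm_sq_eq]
  simp only [Mov.x2, Fin.sum_univ_three, sq]; rfl

theorem per_tau (hr : Per r) {s θ : ℝ} (hψ : ψ (s, θ + 2 * Real.pi) = ψ (s, θ)) :
    tau G ψ Q r (s, θ + 2 * Real.pi) = tau G ψ Q r (s, θ) := by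
  simp only [tau, nom, hr s θ, hψ, dot, frC, Real.cos_add_two_pi, Real.sin_add_two_pi]

namespace Tb

variable (h : Tb G Q r ψ t R)
include h

theorem per_r : Per r := fun s θ => by exact_mod_cast h.ok.per s θ

theorem one_le_tau (hq : R ≤ q.1) : 1 ≤ ‖tau G ψ Q r q‖ := (h.one q hq).trans (r_le_tau (h.pl q hq))

theorem zn (hδ : 0 < δ) : Zn G Q (Ioi R) {p | δ ≤ t.1 p} := by
  refine ⟨isOpen_Ioi, isClosed_le continuous_const (G.contR t), fun p hp => ?_, fun p hp => ?_⟩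
  · obtain ⟨q, hq, rfl⟩ := h.onto p (hδ.trans_le hp)
    rw [(h.pl q hq.le).eq.self_of_nhds, ← norm_pos_iff, pX, norm_zc_cyl, abs_pos]
    exact (h.pl q hq.le).pos.ne'
  · obtain ⟨q, hq, rfl⟩ := h.onto p (hδ.trans_le hp)
    rw [EC.cr, (h.pl q hq.le).eq.self_of_nhds, pX, crd_cyl _ (h.pl q hq.le).pos]
    exact hq

theorem ok_div (hd : Ok (Ioi R) d) : Ok (Ioi R) fun q => d q / (r q : ℂ) ^ 2 :=
  ⟨(hd.sm.mul ((h.ok.sm.pow 2).inv fun q hq => pow_ne_zero _ (h.pl q (le_of_lt hq.1)).ne)).congr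
    fun _ _ => div_eq_mul_inv _ _,
    fun s θ => by simp only [hd.per s θ, h.per_r s θ]⟩

theorem lf_val (hδ : 0 < δ) (hc : Sp {p | δ ≤ t.1 p} c) (hd : Ok (Ioi R) d) (hq : R ≤ q.1) :
    (lf G Q r c d).1 (ψ q) = c.1 (ψ q) * (d q / tau G ψ Q r q) := by
  have hp := h.pl q hq
  rw [lf, (h.zn hδ).lift_pX (hc.mul_right _) (h.ok_div hd) hp.pos hp.eq.self_of_nhds]
  change c.1 (ψ q) * (nu G Q).1 (ψ q) * _ = _
  rw [nu_val hp, tau]
  field_simp [hp.ne, hp.nom_ne]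

omit h in
theorem sp_lf {K : Set X} (hc : Sp K c) : Sp K (lf G Q r c d) := (hc.mul_right _).lift _

theorem pg_lf (hδ : 0 < δ) (hc : Sp {p | δ ≤ t.1 p} c) (hc1 : ∀ p, ‖c.1 p‖ ≤ 1)
    (hd : Jac (vS r) R d) : G.PG (lf G Q r c d).1 := by
  obtain ⟨C, N, hC⟩ := hd.gr
  refine Geo.pg_of (C := |C|) (b := N) fun p => ?_
  by_cases hp : δ ≤ t.1 p
  · obtain ⟨q, hq, rfl⟩ := h.onto p (hδ.trans_le hp)
    have h0 : 0 ≤ q.1 := h.R0.trans hq.le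
    rw [h.lf_val hδ hc hd.ok hq.le, norm_mul, norm_div, x2_val (h.pl q hq.le)]
    refine (mul_le_of_le_one_left (by positivity) (hc1 _)).trans
      ((div_le_self (norm_nonneg _) (h.one_le_tau hq.le)).trans ((hC q hq).trans ?_))
    exact mul_le_mul (le_abs_self C) (pow_le_pow_left₀ h0 (by nlinarith [sq_nonneg (r q)]) N)
      (by positivity) (abs_nonneg C)
  · rw [sp_lf hc p hp, _root_.norm_zero]
    exact mul_nonneg (abs_nonneg C) (pow_nonneg (Geo.w_pos p).le N)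

theorem LL_lf (hδ : 0 < δ) (hc : Sp {p | δ ≤ t.1 p} c) (hd : Jac (vS r) R d) (hq : R < q.1)
    (h1 : ∀ᶠ y in 𝓝 q, c.1 (ψ y) = 1) : (G.SC.LL (lf G Q r c d)).1 (ψ q) = 0 := by
  rw [(h.pl q hq.le).LL_lift _ (d := d), hd.eq q hq, zero_div]
  filter_upwards [h1, continuous_fst.continuousAt.eventually (lt_mem_nhds hq)] with y y1 y2
  rw [h.lf_val hδ hc hd.ok y2.le, y1, one_mul]

theorem LL_lf' (hδ : 0 < δ) (hc : Sp {p | δ ≤ t.1 p} c) (hd : Jac (vS r) R d) (hb : 0 ≤ b)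
    (h1 : ∀ p, b < t.1 p → c.1 p = 1) (hp : b < t.1 p) : (G.SC.LL (lf G Q r c d)).1 p = 0 := by
  obtain ⟨q, hq, rfl⟩ := h.onto p (hb.trans_lt hp)
  rw [h.val q hq.le] at hp
  refine h.LL_lf hδ hc hd hq ?_
  filter_upwards [continuous_fst.continuousAt.eventually (lt_mem_nhds (show R + b < q.1 by linarith))]
    with y hy
  exact h1 _ (by rw [h.val y (by linarith)]; linarith)

omit h in
theorem sp_LL {K : Set X} (hK : IsClosed K) (hc : Sp K c) : Sp K (G.SC.LL c) := fun p hp => by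
  rw [LL_congr (g := 0) (hc.ev hK hp), Mov.LL_zero G.dsC]; rfl

theorem cpt (ha : 0 < a) (b : ℝ) : IsCompact {p | a ≤ t.1 p ∧ t.1 p ≤ b} := by
  refine (G.prop ((R + b) ^ 2 + 4)).of_isClosed_subset
    ((isClosed_le continuous_const (G.contR t)).inter (isClosed_le (G.contR t) continuous_const))
    fun p hp => ?_
  obtain ⟨q, hq, rfl⟩ := h.onto p (ha.trans_le hp.1)
  have h1 := hp.2
  rw [h.val q hq.le] at h1
  have h2 := h.one q hq.le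
  have h3 := h.two q hq.le
  have h4 := h.R0
  change G.S.x2.1 (ψ q) ≤ _
  rw [x2_val (h.pl q hq.le)]
  nlinarith

theorem cs_LL_lf [T2Space X] (hδ : 0 < δ) (hc : Sp {p | δ ≤ t.1 p} c) (hd : Jac (vS r) R d) (hb : 0 ≤ b)
    (h1 : ∀ p, b < t.1 p → c.1 p = 1) : HasCompactSupport (G.SC.LL (lf G Q r c d)).1 :=
  HasCompactSupport.intro (h.cpt hδ b) fun p hp => by
    rcases not_and_or.1 hp with hp | hp
    · exact sp_LL (h.zn hδ).cl (sp_lf hc) p hp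
    · exact h.LL_lf' hδ hc hd hb h1 (not_le.1 hp)

variable [BorelSpace X] [T2Space X] [SecondCountableTopology X] {κ : Type} [Fintype κ]
  {φ : κ → G.R}

/-- **Dirichlet uniqueness** -/
theorem uniq (hφ : G.Fam φ) (h0 : ∀ k p, 0 < t.1 p → (φ k).1 p = 0) (hw : G.gC w ≠ ⊤)
    (hL : G.gC (G.SC.LL w) ≠ ⊤) (hz : ∀ p, 0 < t.1 p → (G.SC.LL w).1 p = 0) (hd : Jac (vS r) R d)
    (hb : ∀ m, bc R (fun q => tau G ψ Q r q * w.1 (ψ q)) m = bc R d m) (hq : R < q.1) :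
    tau G ψ Q r q * w.1 (ψ q) = d q := by
  have : MeasureTheory.IsFiniteMeasure G.gd.nu := G.ga_finite
  have c1 : ContDiffOn ℝ 1 (fun q => tau G ψ Q r q * w.1 (ψ q)) (Ici R ×ˢ univ) := fun y hy =>
    (((h.pl y hy.1).cd_tau.mul ((h.pl y hy.1).pm.cd w.2)).of_le one_le_two).contDiffWithinAt
  have p1 : ∀ s θ, R ≤ s → tau G ψ Q r (s, θ + 2 * Real.pi) * w.1 (ψ (s, θ + 2 * Real.pi)) =
      tau G ψ Q r (s, θ) * w.1 (ψ (s, θ)) := fun s θ hs => by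
    rw [per_tau h.per_r (h.per s θ hs), h.per s θ hs]
  have cl : ∀ {F : ℝ × ℝ → ℂ}, ContDiffOn ℝ 1 F (Ici R ×ˢ univ) → Continuous fun θ => F (R, θ) :=
    fun hF => hF.continuousOn.comp_continuous (continuous_const.prodMk continuous_id)
      fun _ => ⟨mem_Ici.2 le_rfl, trivial⟩
  obtain ⟨C, hC⟩ := lip_bdry (c1.sub hd.c1) (fun s θ hs => by simp only [p1 s θ hs, hd.per s θ])
    (eq_zero_of_fc (fun θ => by simp only [p1 R θ le_rfl, hd.per R θ]) (cl (c1.sub hd.c1)) fun m => by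
      rw [Ra.fc_sub (cl c1) (cl hd.c1)]; exact sub_eq_zero.2 (hb m))
  obtain ⟨K, hK⟩ := (G.prop ((R + 1) ^ 2 + 4)).bddAbove_image
    (Lin.Gd.smg1 (G := G.gd) t.2).continuous.continuousOn
  have hK' : ∀ p, 0 < t.1 p → t.1 p < 1 → G.gd.g1 t.1 p ≤ K := fun p p1 p2 => by
    refine hK ⟨p, ?_, rfl⟩
    obtain ⟨q, hq, rfl⟩ := h.onto p p1
    rw [h.val q hq.le] at p2
    have h2 := h.one q hq.le
    have h3 := h.two q hq.le
    have h4 := h.R0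
    change G.S.x2.1 (ψ q) ≤ _
    rw [x2_val (h.pl q hq.le)]
    nlinarith
  let H : ℝ → G.SmC := fun δ => w - lf G Q r (G.oR (cut t (δ / 2) δ)) d
  have H1 : ∀ δ, 0 < δ → ∀ q : ℝ × ℝ, R + δ < q.1 →
      (H δ).1 (ψ q) = (tau G ψ Q r q * w.1 (ψ q) - d q) / tau G ψ Q r q := fun δ hδ q hq => by
    have hq' : R ≤ q.1 := by linarith
    change w.1 (ψ q) - (lf G Q r _ d).1 (ψ q) = _
    rw [h.lf_val (half_pos hδ) (sp_cut (half_lt_self hδ)) hd.ok hq']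
    change _ - ((cut t (δ / 2) δ).1 (ψ q) : ℂ) * _ = _
    rw [cut_one (half_lt_self hδ) (by rw [h.val q hq']; linarith)]
    field_simp [(h.pl q hq').tau_ne]
    simp
  let f : X → ℂ := fun p => (H (t.1 p / 2)).1 p
  have f1 : ∀ q : ℝ × ℝ, R < q.1 →
      f (ψ q) = (tau G ψ Q r q * w.1 (ψ q) - d q) / tau G ψ Q r q := fun q hq =>
    H1 _ (by rw [h.val q hq.le]; linarith) q (by rw [h.val q hq.le]; linarith)
  have H2 : ∀ δ, 0 < δ → G.gC (H δ) ≠ ⊤ ∧ G.gC (G.SC.LL (H δ)) ≠ ⊤ ∧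
      ∀ p, δ < t.1 p → (H δ).1 p = f p ∧ (G.SC.LL (H δ)).1 p = 0 := fun δ hδ => by
    have s1 := sp_cut (t := t) (half_lt_self hδ)
    have s2 : ∀ p, δ < t.1 p → (G.oR (cut t (δ / 2) δ)).1 p = 1 := fun p hp => by
      change ((cut t (δ / 2) δ).1 p : ℂ) = 1
      rw [cut_one (half_lt_self hδ) hp.le, Complex.ofReal_one]
    refine ⟨G.gC_sub_ne hw (h.pg_lf (half_pos hδ) s1 (fun p => ?_) hd).gC, ?_, fun p hp => ⟨?_, ?_⟩⟩
    · exact (Complex.norm_real _).trans_le (abs_cut p)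
    · rw [Mov.LL_sub G.dsC]
      exact G.gC_sub_ne hL (G.gC_ne_of_cs (h.cs_LL_lf (half_pos hδ) s1 hd hδ.le s2))
    · obtain ⟨q, hq, rfl⟩ := h.onto p (hδ.trans hp)
      rw [h.val q hq.le] at hp
      rw [f1 q hq, H1 δ hδ q (by linarith)]
    · rw [Mov.LL_sub G.dsC]
      change (G.SC.LL w).1 p - (G.SC.LL _).1 p = 0
      rw [hz p (hδ.trans hp), h.LL_lf' (half_pos hδ) s1 hd hδ.le s2 hp, sub_zero]
  have f2 : ∀ p, 0 < t.1 p → t.1 p < 1 → ‖f p‖ ≤ C * t.1 p := fun p p1 p2 => by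
    obtain ⟨q, hq, rfl⟩ := h.onto p p1
    rw [h.val q hq.le] at p2 ⊢
    rw [f1 q hq, norm_div]
    exact (div_le_self (norm_nonneg _) (h.one_le_tau hq.le)).trans (hC q hq.le (by linarith))
  have tq : 0 < t.1 (ψ q) := by rw [h.val q hq.le]; linarith
  have z1 : (f (ψ q)).re = 0 := hφ.end_uniq (h := fun p => (f p).re) t.2 hK' (fun δ hδ => by
    obtain ⟨a1, a2, a3⟩ := H2 δ hδ
    refine ⟨(G.re (H δ)).1, G.gd_s2.2 (G.gR_re_ne a1), ?_, fun p hp => ⟨?_, ?_⟩⟩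
    · rw [G.gd_L, ← G.re_LL]; exact G.gd_s2.2 (G.gR_re_ne a2)
    · exact congrArg Complex.re (a3 p hp).1
    · rw [G.gd_L, ← G.re_LL]; exact congrArg Complex.re (a3 p hp).2)
    (fun p p1 p2 => (Complex.abs_re_le_norm _).trans (f2 p p1 p2)) h0 tq
  have z2 : (f (ψ q)).im = 0 := hφ.end_uniq (h := fun p => (f p).im) t.2 hK' (fun δ hδ => by
    obtain ⟨a1, a2, a3⟩ := H2 δ hδ
    refine ⟨(G.im (H δ)).1, G.gd_s2.2 (G.gR_im_ne a1), ?_, fun p hp => ⟨?_, ?_⟩⟩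
    · rw [G.gd_L, ← G.im_LL]; exact G.gd_s2.2 (G.gR_im_ne a2)
    · exact congrArg Complex.im (a3 p hp).1
    · rw [G.gd_L, ← G.im_LL]; exact congrArg Complex.im (a3 p hp).2)
    (fun p p1 p2 => (Complex.abs_im_le_norm _).trans (f2 p p1 p2)) h0 tq
  have z : f (ψ q) = 0 := Complex.ext z1 z2
  rw [f1 q hq, div_eq_zero_iff, or_iff_left (h.pl q hq.le).tau_ne] at z
  exact sub_eq_zero.1 z

end Tb

end Crest.Agent.N250.Lg

end
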