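import Crest.Agent.N250.R0.Leaf
import Crest.Agent.N250.Se.Dic
import Crest.Agent.N250.Lg.Abs
import Crest.Agent.N250.Lg.Tube
import Crest.Agent.N250.Lg.Sl
import Crest.Agent.N250.Lp.Rot
import Crest.Agent.N250.Wt.Grn2

/-! Row 250, block R0 (helper28): the linearised glued system is invertible. -/

set_option autoImplicit false
open Set Filter Topology
open scoped ContDiff

noncomputable section

namespace Crest.Agent.N250

namespace Lg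

variable {v d d' : ℝ × ℝ → ℂ} {R : ℝ}

theorem Jac.c2 (h : Jac v R d) {q : ℝ × ℝ} (hq : R < q.1) : ContDiffAt ℝ 2 d q :=
  (h.sm.contDiffAt ((isOpen_Ioi.prod isOpen_univ).mem_nhds ⟨hq, trivial⟩)).of_le R0.two_le_infty

theorem Jac.cont (h : Jac v R d) : Continuous fun θ => d (R, θ) :=
  h.c1.continuousOn.comp_continuous (continuous_const.prodMk continuous_id)
    fun _ => ⟨mem_Ici.2 le_rfl, trivial⟩

theorem Jac.comb (hR : 1 ≤ R) (h : Jac v R d) (h' : Jac v R d') (c : ℂ) :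
    Jac v R fun q => d q + c * d' q where
  sm := h.sm.add (contDiffOn_const.mul h'.sm)
  c1 := h.c1.add (contDiffOn_const.mul h'.c1)
  per s θ := by simp only [h.per s θ, h'.per s θ]
  eq q hq := by
    rw [Lp.linEL_add (h.c2 hq) (contDiffAt_const.mul (h'.c2 hq)), Lp.linEL_smul c (h'.c2 hq),
      h.eq q hq, h'.eq q hq]
    simp
  gr := by
    obtain ⟨C, N, a⟩ := h.gr
    obtain ⟨C', N', a'⟩ := h'.gr
    refine ⟨|C| + ‖c‖ * |C'|, N + N', fun q hq => (norm_add_le _ _).trans ?_⟩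
    have h1 : 1 ≤ q.1 := hR.trans hq.le
    have h2 : C * q.1 ^ N ≤ |C| * q.1 ^ (N + N') := by
      gcongr; exacts [le_abs_self C, by omega]
    have h3 : C' * q.1 ^ N' ≤ |C'| * q.1 ^ (N + N') := by
      gcongr; exacts [le_abs_self C', by omega]
    rw [norm_mul, add_mul, mul_assoc]
    exact add_le_add ((a q hq).trans h2)
      (mul_le_mul_of_nonneg_left ((a' q hq).trans h3) (norm_nonneg c))

theorem Jac.bc_comb (h : Jac v R d) (h' : Jac v R d') (c : ℂ) (m : ℤ) :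
    bc R (fun q => d q + c * d' q) m = bc R d m + c * bc R d' m := by
  rw [bc, Ra.fc_add h.cont (g := fun θ => c * d' (R, θ)) (continuous_const.mul h'.cont), Ra.fc_mul]
  rfl

theorem Lo.of_norm (h : Lo d) (e : ∀ q : ℝ × ℝ, R < q.1 → ‖d' q‖ = ‖d q‖) : Lo d' := fun t ht =>
  (h t ht).elim fun x hx => ⟨max x (R + 1), fun q hq => by
    rw [e q (by linarith [le_max_right x (R + 1)])]; exact hx q ((le_max_left _ _).trans hq)⟩

theorem int_cases {P : ℤ → Prop} (h : ∀ m, 2 ≤ |m| → P m) (h' : ∀ i : Fin 3, P ((i : ℤ) - 1))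
    (m : ℤ) : P m := by
  by_cases hm : 2 ≤ |m|
  · exact h m hm
  · obtain ⟨h1, h2⟩ := abs_lt.1 (not_le.1 hm)
    interval_cases m
    exacts [h' 0, h' 1, h' 2]

end Lg

namespace R0

open WS Lg Lp B1

variable {S : Mv} {T : St S}

/-- the linearised boundary datum -/
def St.Dat (T : St S) : T.G.SmC →ₗ[ℂ] T.BB := LinearMap.pi fun j =>
  LinearMap.mulLeft ℂ (Ec.four 2 fun θ => T.rS j (T.R, θ) / T.nu j (T.R, θ)) ∘ₗ
    (Ec.trS T.G (T.lo_ψ j T.eR_lt_R) 2).toLinearMap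

theorem St.syn_Dat (w : T.G.SmC) (j : Fin T.p) (θ : ℝ) : Wi.syn (T.Dat w j) θ =
    T.rS j (T.R, θ) / T.nu j (T.R, θ) * w.1 (T.ψ j (T.R, θ)) := by
  change Wi.syn (_ * Ec.trS T.G (T.lo_ψ j T.eR_lt_R) 2 w) θ = _
  rw [Wi.syn_mul, Ec.syn_trS,
    ((T.pd_rS T.eR_lt_R).div (T.pd_nu T.eR_lt_R) fun _ => T.nu_ne T.eR_lt_R).syn_four]

theorem St.co_Dat (w : T.G.SmC) (j : Fin T.p) (m : ℤ) : Wi.co (T.Dat w j) m =
    bc T.R (fun q => tau T.G (T.ψ j) (T.e.Q j) (T.e.r j) q * w.1 (T.ψ j q)) m := by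
  rw [← Ec.fc_syn, bc]
  exact congrArg (Ra.fc · m) (funext fun θ => by rw [St.syn_Dat, T.tau_eq T.eR_lt_R])

theorem St.val_sum {ι : Type} [Fintype ι] (f : ι → T.G.SmC) (p : S.sl 0) :
    (∑ i, f i).1 p = ∑ i, (f i).1 p := map_sum (T.G.evC p) _ _

theorem St.Dat_zero {w : T.G.SmC} (h : ∀ j θ, w.1 (T.ψ j (T.R, θ)) = 0) : T.Dat w = 0 :=
  funext fun j => Wi.ext_syn fun θ => by rw [St.syn_Dat, h, mul_zero]; exact (Wi.syn_zero θ).symm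

theorem St.ιρ (w : T.G.SmC) : T.G.oR T.G.ι * (T.G.oR T.G.ρ * w) = w := by
  rw [← mul_assoc, ← map_mul, mul_comm T.G.ι, T.G.ρι, map_one, one_mul]

namespace Fa

/-- the tubes, the lifted Jacobi fields and the cut-off rotation fields -/
structure In (F : Fa T) (t : Fin T.p → T.G.R) (Ph : Fin T.p → (ℝ × ℝ → ℂ) → T.G.SmC)
    (Jh : T.Bt →ₗ[ℂ] T.G.SmC) : Prop where
  tb : ∀ j, Tb T.G (T.e.Q j) (T.e.r j) (T.ψ j) (t j) T.R
  Ph_l2 : ∀ j d, Jac (T.vS j) T.R d → T.G.gC (Ph j d) ≠ ⊤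
  Ph_sL : ∀ j d, Jac (T.vS j) T.R d → T.sL j d = -(T.G.oR T.G.ρ * T.G.SC.LL (Ph j d))
  Ph_ip : ∀ k j d, T.G.ipC (F.φ k) (Ph j d) = 0
  Ph_bd : ∀ i j d θ, (Ph j d).1 (T.ψ i (T.R, θ)) = 0
  Jh_eq : ∀ β, Gc.dot (F.D.yy (T.m0 β)) T.G.SC.n = Jh β
  Jh_l2 : ∀ β, T.G.gC (Jh β) ≠ ⊤
  Jh_L2 : ∀ β, T.G.gC (T.G.SC.LL (Jh β)) ≠ ⊤
  Jh_ip : ∀ k β, T.G.ipC (F.φ k) (Jh β) = 0
  Jh_cut : ∀ β, T.G.oR T.χ' * T.G.SC.LL (Jh β) = T.G.SC.LL (Jh β)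
  Jh_LL : ∀ β j (q : ℝ × ℝ), T.R < q.1 → (T.G.SC.LL (Jh β)).1 (T.ψ j q) = 0
  Jh_tau : ∀ β j (q : ℝ × ℝ), T.R < q.1 →
    T.rS j q / T.nu j q * (Jh β).1 (T.ψ j q) = dR (T.e.r j) (fun l => β (j, l)) q

variable {F : Fa T} {t : Fin T.p → T.G.R} {Ph : Fin T.p → (ℝ × ℝ → ℂ) → T.G.SmC}
  {Jh : T.Bt →ₗ[ℂ] T.G.SmC} {u : Fin T.p → T.G.R} {σ : Scale T.G}
  {En : (Fin T.p → ℂ) × T.BB → T.WW σ}

theorem gC_φ (k : F.I) : T.G.gC (T.G.oR (F.φ k)) ≠ ⊤ :=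
  T.G.gC_ne_of_cs ((F.cs_φ k).comp_left (g := fun r : ℝ => (r : ℂ)) Complex.ofReal_zero)

/-- on the end `j` the slow fields are determined by their Dirichlet data -/
theorem In.tube (hi : F.In t Ph Jh) (hs : F.Sl u) (c : Fin T.p → ℂ) (β : T.Bt) {j : Fin T.p}
    {d : ℝ × ℝ → ℂ} (hd : Jac (T.vS j) T.R d)
    (hb : ∀ m, Wi.co (T.Dat (∑ l, c l • T.G.oR (u l) - Jh β) j) m = bc T.R d m) {q : ℝ × ℝ}
    (hq : T.R < q.1) : c j * (T.rS j q / T.nu j q * ((u j).1 (T.ψ j q) : ℂ)) +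
      dR (T.e.r j) (-fun l => β (j, l)) q = d q := by
  have hL : T.G.SC.LL (∑ l, c l • T.G.oR (u l) - Jh β) =
      ∑ l, c l • T.G.oR (F.φ (.inr l)) - T.G.SC.LL (Jh β) := by
    rw [← T.G.LLL_apply, map_sub, map_sum]
    simp only [map_smul, Geo.LLL_apply, Geo.LL_oR, hs.LL]
  have h := (hi.tb j).uniq F.fam (w := ∑ l, c l • T.G.oR (u l) - Jh β) (fun k p hp => by
      obtain ⟨y, hy, rfl⟩ := (hi.tb j).onto p hp
      exact F.φ_ψ k (by linarith))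
    (T.G.gC_sub_ne (Geo.gC_sum_ne _ fun l _ => T.G.gC_smul_ne _ (by rw [Geo.gC_oR]; exact hs.l2 l))
      (hi.Jh_l2 β))
    (hL ▸ T.G.gC_sub_ne (Geo.gC_sum_ne _ fun l _ => T.G.gC_smul_ne _ (gC_φ _))
      (hi.Jh_L2 β)) (fun p hp => by
      obtain ⟨y, hy, rfl⟩ := (hi.tb j).onto p hp
      rw [hL]
      change (∑ l, c l • T.G.oR (F.φ (.inr l))).1 _ - _ = 0
      rw [hi.Jh_LL β j y hy, sub_zero, St.val_sum]
      refine Finset.sum_eq_zero fun l _ => ?_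
      change c l * ((F.φ (.inr l)).1 _ : ℂ) = 0
      rw [F.φ_ψ _ (by linarith)]; simp) hd (fun m => by rw [← St.co_Dat]; exact hb m) hq
  rw [← h, T.tau_eq (T.eR_lt_R.trans hq), ← neg_one_smul ℂ (fun l => β (j, l)), dR_smul,
    ← hi.Jh_tau β j q hq]
  change _ = _ * ((∑ l, c l • T.G.oR (u l)).1 _ - _)
  rw [St.val_sum, Finset.sum_eq_single j (fun l _ hl => by
    change c l * ((u l).1 _ : ℂ) = 0
    rw [hs.off l j hl q hq.le]; simp) (by simp)]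
  change _ = _ * (c j * ((u j).1 _ : ℂ) - _)
  ring

/-- lifted Jacobi fields -/
theorem In.lift (hi : F.In t Ph Jh) {d : Fin T.p → ℝ × ℝ → ℂ} (hd : ∀ j, Jac (T.vS j) T.R (d j))
    (α : Fin T.p → ℂ) {s : Fin T.p → σ.AA} (e : ∀ j, σ.val (s j) = α j • T.sL j (d j)) :
    T.G.gC (∑ j, α j • Ph j (d j)) ≠ ⊤ ∧ (∀ k, T.G.ipC (F.φ k) (∑ j, α j • Ph j (d j)) = 0) ∧
    T.Dat (∑ j, α j • Ph j (d j)) = 0 ∧
    T.G.oR T.G.ι * σ.val (∑ j, s j) = -T.G.LLL (∑ j, α j • Ph j (d j)) := by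
  refine ⟨Geo.gC_sum_ne _ fun j _ => T.G.gC_smul_ne _ (hi.Ph_l2 j _ (hd j)), fun k => ?_, ?_, ?_⟩
  · rw [T.G.ipC_sum (F.cs_φ k)]
    exact Finset.sum_eq_zero fun j _ => by rw [Geo.ipC_smul, hi.Ph_ip, mul_zero]
  · rw [map_sum]
    exact Finset.sum_eq_zero fun j _ => by
      rw [map_smul, St.Dat_zero fun i θ => hi.Ph_bd i j _ θ, smul_zero]
  · rw [map_sum, map_sum, Finset.mul_sum, ← Finset.sum_neg_distrib]
    refine Finset.sum_congr rfl fun j _ => ?_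
    rw [e, hi.Ph_sL j _ (hd j), map_smul, mul_smul_comm, mul_neg (T.G.oR T.G.ι), St.ιρ, smul_neg]; rfl

/-- the abstract linear data -/
def In.ld (hi : F.In t Ph Jh) (hs : F.Sl u) (hp : F.PhiD σ) (hj : T.JacD σ En) :
    LD T.G.SmC σ.AA T.BB (Fin T.p × Fin 3 → ℂ) (Fin F.n) (Fin T.p) (Fin T.p × Fin 2) where
  H := ⟨⟨⟨{v | T.G.gC v ≠ ⊤}, T.G.gC_add_ne⟩, T.G.nm_g.zero.trans_ne ENNReal.zero_ne_top⟩,
    fun c _ => T.G.gC_smul_ne c⟩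
  L := T.G.LLL
  ι := LinearMap.mulLeft ℂ (T.G.oR T.G.ι) ∘ₗ σ.val.toLinearMap
  ψ k := T.G.oR (F.φ k)
  Pr := LinearMap.pi fun k => T.G.ipL (F.cs_φ k)
  Gu := σ.wL F.grn
  Gc := (σ.cL F.grn).toLinearMap
  u l := T.G.oR (u l)
  Jh := Jh
  r := -((fderiv ℂ F.NL 0).toLinearMap ∘ₗ LinearMap.inr ℂ _ _ ∘ₗ LinearMap.inr ℂ _ _)
  Dat := T.Dat
  Ph b := ∑ j, (1 : ℂ) • Ph j (hj.jb b j).choose
  S0 := ∑ j, LinearMap.fst ℂ _ _ ∘ₗ LinearMap.proj j ∘ₗ (fderiv ℂ En 0).toLinearMap ∘ₗ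
    LinearMap.inr ℂ _ _
  pr := LinearMap.pi fun q => (Wi.coL (omP 2) ((q.2 : ℤ) - 1)).toLinearMap ∘ₗ LinearMap.proj q.1
  d0 := LinearMap.pi fun q => LinearMap.proj q.2 ∘ₗ LinearMap.snd ℂ _ _ ∘ₗ LinearMap.proj q.1 ∘ₗ
    (fderiv ℂ En 0).toLinearMap ∘ₗ LinearMap.inr ℂ _ _
  Gu_mem q := (σ.isG F.grn q).l2
  L_Gu q := (σ.isG F.grn q).eq
  Pr_Gu q := funext (σ.isG F.grn q).ip
  uniq v hv c h1 h2 := (hs.core.grnS.uniq0 (c := c) ⟨hv, h1.trans (zero_add _).symm, h2⟩).1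
  uniq' v hv c h1 h2 := (F.grn.uniq0 (c := c) ⟨hv, h1.trans (zero_add _).symm, congrFun h2⟩).1
  u_mem l := (T.G.gC_oR _).trans_ne (hs.l2 l)
  L_u l := (T.G.LL_oR _).trans (congrArg _ (hs.LL l))
  Pr_u l k := (T.G.ipC_oR _ _).trans (by rw [hs.ip, Complex.ofReal_zero])
  Jh_mem := hi.Jh_l2
  Pr_Jh β := funext fun k => hi.Jh_ip k β
  ι_r β := by
    change T.G.oR T.G.ι * σ.val (-fderiv ℂ F.NL 0 (0, 0, β)) = T.G.SC.LL _
    rw [map_neg, hp.nl.fd, neg_neg, hi.Jh_eq, mul_comm T.χ', map_mul, mul_assoc, St.ιρ, hi.Jh_cut]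
  Ph_mem b := (hi.lift (fun j => (hj.jb b j).choose_spec.1.jac) 1
    fun j => (hj.jb b j).choose_spec.2.1.trans (one_smul ℂ _).symm).1
  Pr_Ph b := funext (hi.lift (fun j => (hj.jb b j).choose_spec.1.jac) 1
    fun j => (hj.jb b j).choose_spec.2.1.trans (one_smul ℂ _).symm).2.1
  Dat_Ph b := (hi.lift (fun j => (hj.jb b j).choose_spec.1.jac) 1
    fun j => (hj.jb b j).choose_spec.2.1.trans (one_smul ℂ _).symm).2.2.1
  ι_S0 b := by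
    rw [LinearMap.sum_apply]
    exact (hi.lift (fun j => (hj.jb b j).choose_spec.1.jac) 1
      fun j => (hj.jb b j).choose_spec.2.1.trans (one_smul ℂ _).symm).2.2.2
  slow c β h := by
    have k : ∀ j, c j = 0 ∧ (-fun l => β (j, l)) = 0 := fun j => by
      obtain ⟨d, h1, -, h2⟩ := hj.jb (T.Dat (∑ l, c l • T.G.oR (u l) - Jh β)) j
      refine (as_of_ends T.e j).indep' (hs.unb j) (h1.lo.of_norm (R := T.R) fun q hq => ?_)
      rw [hi.tube hs c β h1.jac (int_cases (fun m hm => (h1.inner m hm).symm)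
        fun i => (congrFun h (j, i)).trans (h2 i)) hq]
    exact ⟨funext fun j => (k j).1, funext fun q => congrFun (neg_eq_zero.1 (k q.1).2) q.2⟩

theorem In.sys_eq (hi : F.In t Ph Jh) (hs : F.Sl u) (hp : F.PhiD σ) (hj : T.JacD σ En)
    (ξ : F.Ξ σ) : fderiv ℂ F.Φ 0 (ξ, 0, fderiv ℂ En 0 (0, fderiv ℂ F.dat 0 ξ)) =
      (hi.ld hs hp hj).sys 1 ξ := by
  have e1 : fderiv ℂ F.dat 0 ξ = (hi.ld hs hp hj).bd ξ := funext fun j => Wi.ext_syn fun θ =>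
    (hp.dat.fd ξ j θ).trans (St.syn_Dat _ j θ).symm
  have e2 : fderiv ℂ F.NL 0 ξ = fderiv ℂ F.NL 0 (0, 0, ξ.2.2) := σ.val_inj (by
    rw [hp.nl.fd, hp.nl.fd])
  rw [hp.fd, e1, e2]
  refine Prod.ext ?_ (Prod.ext (funext fun k => by simp [LD.sys]) rfl)
  simp only [LD.sys]
  rw [sub_eq_add_neg ξ.1]
  refine congrArg₂ (· - ·) rfl ?_
  symm
  exact (LinearMap.sum_apply _ _ _).trans rfl

theorem In.linD (hi : F.In t Ph Jh) (hs : F.Sl u) (hp : F.PhiD σ) (hj : T.JacD σ En) :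
    F.LinD σ En := by
  obtain ⟨A, hA⟩ := (hi.ld hs hp hj).exists_equiv (by simp; ring) one_ne_zero
    (fderiv ℂ F.Φ 0 ∘L (ContinuousLinearMap.id ℂ _).prod ((0 : F.Ξ σ →L[ℂ] (Fin F.n → ℂ)).prod
      (fderiv ℂ En 0 ∘L ContinuousLinearMap.inr ℂ _ _ ∘L fderiv ℂ F.dat 0)))
    (hi.sys_eq hs hp hj)
  refine ⟨A, hA, fun α ξ h h0 => funext fun j => ?_⟩
  choose d h2 h3 using hj.jc
  obtain ⟨a1, a2, a3, a4⟩ := hi.lift (fun j => (h2 j).jac) α fun j => (h3 j α).1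
  have e := (hi.ld hs hp hj).resp one_ne_zero a1 (funext a2) a4 a3 (ξ := ξ)
    (d := fun q => (fderiv ℂ En 0 (α, 0) q.1).2 q.2) (by
      rw [← hi.sys_eq]
      refine ((hA ξ).symm.trans h).trans ?_
      rw [hp.fd]
      simp [Pi.neg_def, Pi.zero_def]) fun a => congrFun h0 _
  obtain ⟨d1, h1, -, h4⟩ := hj.jb (T.Dat (-Jh ξ.2.2)) j
  refine ((as_of_ends T.e j).indep' (β := fun l => ξ.2.2 (j, l)) (h2 j).unb
    (h1.lo.of_norm (R := T.R) fun q hq => ?_)).1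
  have k := hi.tube hs 0 ξ.2.2 (h1.jac.comb (by linarith [T.R_ge]) (h2 j).jac (α j)) (by
    simp only [Pi.zero_apply, zero_smul, Finset.sum_const_zero, zero_sub,
      h1.jac.bc_comb (h2 j).jac]
    exact int_cases (fun m hm => by rw [h1.inner m hm, (h2 j).inner m hm, mul_zero, add_zero])
      fun i => (congrFun e (j, i)).trans (congrArg₂ (· + ·) (h4 i) ((h3 j α).2 i))) hq
  rw [← neg_one_smul ℂ (fun l => ξ.2.2 (j, l)), dR_smul, Pi.zero_apply] at k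
  rw [← norm_neg (d1 q)]
  congr 1
  linear_combination -k

end Fa

theorem linL_of_in (h1 : ∀ (S : Mv) (e : Ends S), Ev e fun T => ∃ (F : Fa T) (u : _), F.Sl u)
    (h2 : ∀ (S : Mv) (T : St S) (F : Fa T), ∃ t Ph Jh, F.In t Ph Jh) : LinL := fun S e =>
  (h1 S e).mono fun T _ ⟨F, _, hs⟩ => ⟨F, Sg.of_forall fun _ hp _ hj =>
    (h2 S T F).elim fun _ ⟨_, _, hi⟩ => hi.linD hs hp hj⟩

end R0

end Crest.Agent.N250

end

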