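import Crest.Agent.N250.Se.Dic
import Crest.Agent.N250.Lg.Tube
import Crest.Agent.N250.Lg.Ex

/-! Row 250, block R0 (helper24): the cut fast growing Jacobi fields. -/

set_option autoImplicit false
open Set Filter Topology
open scoped ContDiff
open Crest.GeometryTopology.MCF

noncomputable section

namespace Crest.Agent.N250

namespace Lg.U2

theorem jac_mono {v d : ℝ × ℝ → ℂ} {R R' : ℝ} (h : Jac v R d) (hR : R ≤ R') : Jac v R' d :=
  ⟨h.sm.mono (prod_mono_left (Ioi_subset_Ioi hR)), h.c1.mono (prod_mono_left (Ici_subset_Ici.2 hR)),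
    h.per, fun q hq => h.eq q (hR.trans_lt hq),
    h.gr.imp fun _ h => h.imp fun _ h q hq => h q (hR.trans_lt hq)⟩

theorem unb_congr {d d' : ℝ × ℝ → ℂ} {s : ℝ} (h : Unb d) (e : ∀ q : ℝ × ℝ, s ≤ q.1 → d' q = d q) :
    Unb d' := fun C x0 => by
  obtain ⟨q, h1, h2⟩ := h C (max x0 s)
  exact ⟨q, (le_max_left _ _).trans h1, by rwa [e q ((le_max_right _ _).trans h1)]⟩

theorem unb_re_or_im {d : ℝ × ℝ → ℂ} (h : Unb d) :
    (Unb fun q => ((d q).re : ℂ)) ∨ Unb fun q => ((d q).im : ℂ) := by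
  by_contra hn
  simp only [Unb, not_or, not_forall, not_exists, not_and, not_lt] at hn
  obtain ⟨⟨C, x, h1⟩, C', x', h2⟩ := hn
  obtain ⟨q, hq, h3⟩ := h (C + C') (max x x')
  have a1 := h1 q ((le_max_left _ _).trans hq)
  have a2 := h2 q ((le_max_right _ _).trans hq)
  rw [Complex.norm_real, Real.norm_eq_abs] at a1 a2
  linarith [Complex.norm_le_abs_re_add_abs_im (d q)]

open WS Wr Po R0 R0.St

variable {S : Mv} (T : St S) {j : Fin T.p} {q : ℝ × ℝ} {a : ℝ}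

/-- the height above `R + a` on the tube `j` -/
def tt (j : Fin T.p) (a : ℝ) : T.G.R :=
  mkR T.P.shr.reg (fun p => chi T.e j (T.R + (a - 1)) (T.R + a) p.1 * (xi T.e j p.1 - (T.R + a - 1)) - 1)
    (Mv.sm_of_contDiff ((((contDiff_chi j _ _).mul ((contDiff_xi j).sub contDiff_const)).sub
      contDiff_const).comp contDiff_fst))

theorem tt_apply (j : Fin T.p) (a : ℝ) (p : S.sl 0) :
    (tt T j a).1 p = (T.cu j (a - 1) a).1 p * (xi T.e j p - (T.R + a - 1)) - 1 := rfl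

theorem tb (j : Fin T.p) (ha : -5 ≤ a) :
    Tb T.G (T.e.Q j) (T.e.r j) (T.ψ j) (tt T j a) (T.R + a) := by
  have h0 : ∀ q : ℝ × ℝ, T.R + a ≤ q.1 → T.e.R < q.1 := fun q h =>
    (T.eR_lt (by linarith)).trans_le h
  refine ⟨by linarith [T.R_ge], fun q h => T.pl (h0 q h),
    T.ok_rS (Ioi_subset_Ioi (T.eR_lt (by linarith)).le), fun s θ h => T.ψ_per (h0 (s, θ) h) θ,
    fun q h => (T.r_gt (h0 q h)).le, fun q h => (T.r_lt (h0 q h)).le, fun q h => ?_, fun p hp => ?_⟩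
  · rw [tt_apply, T.cu_ψ_one (by linarith) (by linarith) h, T.xi_ψ (h0 q h)]
    ring
  · rw [tt_apply] at hp
    have h1 : (T.cu j (a - 1) a).1 p ≠ 0 := fun e => by rw [e] at hp; linarith
    obtain ⟨q, hq, -, rfl⟩ := T.exists_ψ (T.eR_lt (by linarith)).le
      (T.tube_of_cu (by linarith) (by linarith) h1)
    have h2 : T.e.R < q.1 := (T.eR_lt (by linarith)).trans hq
    refine ⟨q, ?_, rfl⟩
    rw [T.xi_ψ h2] at hp
    nlinarith [T.cu_le_one j (a - 1) a (T.ψ j q), T.cu_nonneg j (a - 1) a (T.ψ j q)]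

/-- the complex cut field -/
theorem exists_w {R1 : ℝ} {d : ℝ × ℝ → ℂ} (hR : R1 + 4 ≤ T.R) (hd : Jac (T.vS j) R1 d) :
    ∃ w : T.G.SmC, T.G.gC w ≠ ⊤ ∧
      (∀ p, w.1 p ≠ 0 → ∃ q : ℝ × ℝ, T.R - 3 ≤ q.1 ∧ T.ψ j q = p) ∧
      (∃ K, IsCompact K ∧ (∀ p ∉ K, (T.G.SC.LL w).1 p = 0) ∧
        ∀ p ∈ K, ∃ q : ℝ × ℝ, T.R - 3 ≤ q.1 ∧ q.1 ≤ T.R - 2 ∧ T.ψ j q = p) ∧
      ∀ q : ℝ × ℝ, T.R - 2 ≤ q.1 → T.rS j q / T.nu j q * w.1 (T.ψ j q) = d q := by
  have h := tb T j (a := -4) (by norm_num)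
  have hd' : Jac (Lp.vS (T.e.r j)) (T.R + -4) d := jac_mono hd (by linarith)
  have hc := sp_cut (t := tt T j (-4)) one_lt_two
  have h1 : ∀ p, 2 < (tt T j (-4)).1 p → (T.G.oR (cut (tt T j (-4)) 1 2)).1 p = 1 := fun p hp => by
    change ((cut (tt T j (-4)) 1 2).1 p : ℂ) = 1
    rw [cut_one one_lt_two hp.le, Complex.ofReal_one]
  have hq : ∀ p, 1 ≤ (tt T j (-4)).1 p →
      ∃ q : ℝ × ℝ, (tt T j (-4)).1 p = q.1 - (T.R + -4) ∧ T.ψ j q = p := fun p hp => by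
    obtain ⟨q, h2, rfl⟩ := h.onto p (one_pos.trans_le hp)
    exact ⟨q, h.val q h2.le, rfl⟩
  refine ⟨lf T.G (T.e.Q j) (T.e.r j) (T.G.oR (cut (tt T j (-4)) 1 2)) d,
    (h.pg_lf one_pos hc (fun p => ?_) hd').gC, fun p hp => ?_,
    ⟨_, h.cpt one_pos 2, fun p hp => ?_, fun p hp => ?_⟩, fun q h2 => ?_⟩
  · change ‖((cut (tt T j (-4)) 1 2).1 p : ℂ)‖ ≤ 1
    rw [Complex.norm_real]; exact abs_cut p
  · have h2 : 1 ≤ (tt T j (-4)).1 p := by_contra fun h' => hp (Tb.sp_lf hc p h')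
    obtain ⟨q, e1, e2⟩ := hq p h2
    exact ⟨q, by linarith, e2⟩
  · rcases not_and_or.1 hp with hp | hp
    · exact Tb.sp_LL (h.zn one_pos).cl (Tb.sp_lf hc) p hp
    · exact h.LL_lf' one_pos hc hd' zero_le_two h1 (not_le.1 hp)
  · obtain ⟨q, e1, e2⟩ := hq p hp.1
    exact ⟨q, by linarith [hp.1], by linarith [hp.2], e2⟩
  · have h3 : T.e.R < q.1 := T.eR_lt' (by linarith)
    have h4 : T.R + -4 ≤ q.1 := by linarith
    have h5 : (T.G.oR (cut (tt T j (-4)) 1 2)).1 (T.ψ j q) = 1 := by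
      change ((cut (tt T j (-4)) 1 2).1 _ : ℂ) = 1
      rw [cut_one one_lt_two (by rw [h.val q h4]; linarith), Complex.ofReal_one]
    rw [h.lf_val one_pos hc hd'.ok h4, h5, one_mul, T.tau_eq h3,
      mul_div_cancel₀ _ (div_ne_zero (T.rS_ne h3) (T.nu_ne h3))]

theorem uj_of {u : T.G.R} (l2 : T.G.gR u ≠ ⊤)
    (h1 : ∀ p, u.1 p ≠ 0 → ∃ q : ℝ × ℝ, T.R - 3 ≤ q.1 ∧ T.ψ j q = p) {K : Set (S.sl 0)}
    (hK : IsCompact K) (h2 : ∀ p ∉ K, (T.G.S.LL u).1 p = 0)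
    (h3 : ∀ p ∈ K, ∃ q : ℝ × ℝ, T.R - 3 ≤ q.1 ∧ q.1 ≤ T.R - 2 ∧ T.ψ j q = p)
    (h4 : Unb fun q => T.rS j q / T.nu j q * (u.1 (T.ψ j q) : ℂ)) : T.Uj j u := by
  have ht : ∀ p, u.1 p ≠ 0 → ((p : E), (0 : ℝ)) ∈ Wr.tube T.e j (T.R - 4) := fun p hp => by
    obtain ⟨q, hq, rfl⟩ := h1 p hp
    exact T.ψ_tube (T.eR_lt' (by linarith)) (by linarith)
  have hs : Function.support (T.G.S.LL u).1 ⊆ K := fun p hp => by_contra fun h => hp (h2 p h)
  refine ⟨l2, fun p hp => ?_, fun p hp => by_contra fun h => ?_,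
    fun i hi q hq => by_contra fun h => ?_, h4⟩
  swap
  · obtain ⟨q, hq, rfl⟩ := h1 p h
    have := abs_xi_le (e := T.e) j (T.ψ j q)
    rw [T.xi_ψ (T.eR_lt' (by linarith))] at this
    linarith [le_abs_self q.1]
  · obtain ⟨q, a1, a2, rfl⟩ := h3 p (closure_minimal hs hK.isClosed hp)
    have h0 : T.e.R < q.1 := T.eR_lt' (by linarith)
    refine ⟨abs_le_of_sq_le_sq' ?_ (by linarith [T.R_ge]) |>.2, fun i hi => ?_⟩
    · rw [T.norm_ψ_sq h0]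
      nlinarith [T.r_lt (j := j) h0, T.r_pos (j := j) h0, T.R_ge]
    · by_cases e : i = j
      · subst e
        have := hi.1
        rw [T.xi_ψ h0] at this
        linarith
      · exact tube_disj e (T.ψ_tube h0 h0) (tube_mono (T.eR_lt' (by linarith)).le hi)
  · have h0 : T.e.R < q.1 := T.eR_lt_R.trans_le hq
    exact tube_disj hi (T.ψ_tube h0 h0) (tube_mono (T.eR_lt' (by linarith)).le (ht _ h))

/-- **the cut field** -/
theorem exists_uj {R1 : ℝ} {d : ℝ × ℝ → ℂ} (hR : R1 + 4 ≤ T.R) (hd : Jac (T.vS j) R1 d)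
    (hu : Unb d) : ∃ u, T.Uj j u := by
  obtain ⟨w, l2, h1, ⟨K, hK, h2, h3⟩, h4⟩ := exists_w T hR hd
  have hτ : ∀ q, T.rS j q / T.nu j q = ((T.e.r j q / T.nuR j q : ℝ) : ℂ) := fun q => by
    rw [Complex.ofReal_div]; rfl
  rcases unb_re_or_im hu with h | h
  · refine ⟨T.G.re w, uj_of T (T.G.gR_re_ne l2) (fun p hp => h1 p fun e => hp ?_) hK
      (fun p hp => ?_) h3 (unb_congr h (s := T.R - 2) fun q hq => ?_)⟩
    · change (w.1 p).re = 0
      rw [e, Complex.zero_re]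
    · rw [← T.G.re_LL]
      change ((T.G.SC.LL w).1 p).re = 0
      rw [h2 p hp, Complex.zero_re]
    · rw [← h4 q hq, hτ, Complex.re_ofReal_mul, Complex.ofReal_mul]; rfl
  · refine ⟨T.G.im w, uj_of T (T.G.gR_im_ne l2) (fun p hp => h1 p fun e => hp ?_) hK
      (fun p hp => ?_) h3 (unb_congr h (s := T.R - 2) fun q hq => ?_)⟩
    · change (w.1 p).im = 0
      rw [e, Complex.zero_im]
    · rw [← T.G.im_LL]
      change ((T.G.SC.LL w).1 p).im = 0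
      rw [h2 p hp, Complex.zero_im]
    · rw [← h4 q hq, hτ, Complex.im_ofReal_mul, Complex.ofReal_mul]; rfl

theorem ujL2 (h : JaL) (S : Mv) (e : Ends S) : Ev e fun T => ∀ j, ∃ u, T.Uj j u := by
  by_cases hT : Nonempty (St S)
  swap
  · exact Ev.of_forall fun T => (hT ⟨T⟩).elim
  obtain ⟨T0⟩ := hT
  choose R1 d _ hd hu using h S T0.P.Λ T0.P.shr T0.P.ar e
  obtain ⟨M, hM⟩ := (Set.finite_range R1).bddAbove
  refine (Ev.of_R (M + 4)).mono fun T he hR j => ?_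
  subst he
  exact exists_uj T (R1 := R1 j) (by linarith [hM ⟨j, rfl⟩]) (hd j) (hu j)

/-- 28's hypothesis (a) -/
theorem slL2 (h : JaL) (S : Mv) (e : Ends S) :
    Ev e fun T => ∃ (F : Fa T) (u : Fin T.p → T.G.R), F.Sl u := sl_of (ujL2 h S e)

end Lg.U2

end Crest.Agent.N250

end
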