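import Crest.Agent.N250.Lg.Inst
import Crest.Agent.N250.Lp.Jh
import Crest.Agent.N250.Lg.Uj2

/-!
# Row 250 (helper92): the data `Fa.In` exist
-/

set_option autoImplicit false
open Set

noncomputable section

namespace Crest.Agent.N250.R0

open WS Wr Lg Lp

variable {S : Mv}

/-- a height function of the end `j` -/
def St.tH (T : St S) (j : Fin T.p) : T.G.R :=
  mkR T.reg (fun q => chi T.e j (T.R + -2) (T.R + -1) q.1 * (xi T.e j q.1 - (T.R + -2)) - 2)
    (Mv.sm_of_contDiff ((((contDiff_chi j _ _).mul ((contDiff_xi j).sub contDiff_const)).sub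
      contDiff_const).comp contDiff_fst))

theorem St.tb_tH (T : St S) (j : Fin T.p) :
    Tb T.G (T.e.Q j) (T.e.r j) (T.ψ j) (T.tH j) T.R where
  R0 := T.R_pos.le
  pl _ h := T.pl (T.eR_lt_R.trans_le h)
  ok := T.ok_rS (Ioi_subset_Ioi T.eR_lt_R.le)
  per _ θ h := T.ψ_per (T.eR_lt_R.trans_le h) θ
  one _ h := (T.r_gt (T.eR_lt_R.trans_le h)).le
  two _ h := (T.r_lt (T.eR_lt_R.trans_le h)).le
  val q h := by
    have h' := T.eR_lt_R.trans_le h
    change chi T.e j _ _ ((T.ψ j q).1, (0 : ℝ)).1 * (xi T.e j (T.ψ j q) - _) - 2 = _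
    rw [chi_one (by linarith) (T.ψ_tube h' (by linarith)), T.xi_ψ h']
    ring
  onto p h := by
    change 0 < (T.P.chiR j (T.R + -2) (T.R + -1)).1 p * (xi T.e j p - (T.R + -2)) - 2 at h
    have h1 : p ∈ EC.Kh T.P j (T.R + -2) := by
      by_contra h1
      rw [EC.chiR_zero (by linarith) h1] at h
      linarith
    have h2 : (T.P.chiR j (T.R + -2) (T.R + -1)).1 p ≤ 1 := chi_le_one j _ _ _
    have h3 := mul_le_of_le_one_left (sub_nonneg.2 h1.1) h2
    obtain ⟨q, a, -, b⟩ := T.exists_ψ (j := j) T.eR_lt_R.le (p := p)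
      ⟨by change T.R < xi T.e j p; linarith, (EC.Kh_tube (T.eR_lt (by norm_num)) h1).2⟩
    exact ⟨q, a, b⟩

theorem in_ex (S : Mv) (T : St S) (F : Fa T) : ∃ t Ph Jh, F.In t Ph Jh :=
  ⟨T.tH, fun j d => Lp.Ph T j d, JhL T,
    { tb := T.tb_tH
      Ph_l2 := fun j _ h => Ph_l2 T j h
      Ph_sL := fun j _ h => Ph_sL T j h
      Ph_ip := fun k j _ => Ph_ip T j F k
      Ph_bd := fun i j _ θ => Ph_bd T j i θ
      Jh_eq := Jh_eq T F
      Jh_l2 := gC_Jh T
      Jh_L2 := gC_LL_Jh T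
      Jh_ip := ipC_Jh T F
      Jh_cut := chi_LL_Jh T
      Jh_LL := fun β j _ h => LL_Jh_st T j β h.le
      Jh_tau := fun β j _ h => Jh_st T j β h.le }⟩

theorem linL_of_sl (h : ∀ (S : Mv) (e : Ends S), Ev e fun T => ∃ (F : Fa T) (u : _), F.Sl u) :
    LinL := linL_of_in h in_ex

theorem linL_of (h : JaL) : LinL := linL_of_sl (U2.slL2 h)

end Crest.Agent.N250.R0

end
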