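import Crest.Agent.N250.Lg.Inst
import Crest.Agent.N250.Lg.Uj2
import Crest.Agent.N250.Lp.Jh

/-! Row 250, block R0 (helper24): the leaf `LinL`. -/

set_option autoImplicit false

namespace Crest.Agent.N250.Lg.U2

open R0

theorem in_ex2 (S : Mv) (T : St S) (F : Fa T) : ∃ t Ph Jh, F.In t Ph Jh :=
  ⟨fun j => tt T j 0, fun j d => Lp.Ph T j d, Lp.JhL T,
    { tb := fun j => by simpa only [add_zero] using tb T j (a := 0) (by norm_num)
      Ph_l2 := fun j _ h => Lp.Ph_l2 T j h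
      Ph_sL := fun j _ h => Lp.Ph_sL T j h
      Ph_ip := fun k j _ => Lp.Ph_ip T j F k
      Ph_bd := fun i j _ θ => Lp.Ph_bd T j i θ
      Jh_eq := Lp.Jh_eq T F
      Jh_l2 := Lp.gC_Jh T
      Jh_L2 := Lp.gC_LL_Jh T
      Jh_ip := fun k β => Lp.ipC_Jh T F k β
      Jh_cut := Lp.chi_LL_Jh T
      Jh_LL := fun β j _ hq => Lp.LL_Jh_st T j β hq.le
      Jh_tau := fun β j _ hq => Lp.Jh_st T j β hq.le }⟩

theorem linL_of2 (h : JaL) : LinL := linL_of_in (slL2 h) in_ex2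

end Crest.Agent.N250.Lg.U2
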